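import Vale.Agent.P231.WF.Top
import Vale.Agent.P231.Co.Thom

/-!
# P231, stage 3, integrality (S3I 5): charts of diffeological spaces and their bump forms
-/

set_option linter.unusedSectionVars false
set_option linter.unusedVariables false

open MeasureTheory Set Module Filter Topology
open scoped ContDiff Real

namespace Vale.Agent.P231.S3I

open Vale.Agent.P231.Fm Vale.Agent.P231.W Vale.Agent.P231.WF

/-- a chart whose image is all of `V` -/
structure Cht {X : Type*} (D : Dif X) (V : Type) [NormedAddCommGroup V] [NormedSpace ℝ V]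
    [FiniteDimensional ℝ V] where
  /-- the domain -/
  U : Set X
  /-- the parametrisation -/
  c : V → X
  /-- the chart -/
  f : X → V
  opn : Co.IsO D U
  plot : ∀ x, D.At c x
  mf : (D.on U).Map (Dif.lin V) f
  mem : ∀ x, c x ∈ U
  fc : ∀ x, f (c x) = x
  cf : ∀ y ∈ U, c (f y) = y

variable {X : Type*} {D : Dif X} {V : Type} [NormedAddCommGroup V] [NormedSpace ℝ V]
  [FiniteDimensional ℝ V]

namespace Cht

section Top

variable [TopologicalSpace X] [T2Space X] (hpc : PlotsCont D) (C : Cht D V) {W : V → Lam V}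
  (hW : ContDiff ℝ ∞ W) (hWc : HasCompactSupport W)

include hpc

theorem continuous_c : Continuous C.c := continuous_iff_continuousAt.2 fun x => hpc (C.plot x)

theorem isClosed_image {K : Set V} (hK : IsCompact K) : IsClosed (C.c '' K) :=
  (hK.image (C.continuous_c hpc)).isClosed

theorem isO_compl {K : Set V} (hK : IsCompact K) : Co.IsO D (C.c '' K)ᶜ := ⟨fun hu hx =>
  (hpc hu).eventually ((C.isClosed_image hpc hK).isOpen_compl.mem_nhds hx)⟩

include hWc in
theorem cover_at {E : Type} [NormedAddCommGroup E] [NormedSpace ℝ E] [FiniteDimensional ℝ E]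
    {u : E → X} {x : E} (hu : D.At u x) :
    (D.on C.U).At u x ∨ (D.on (C.c '' tsupport W)ᶜ).At u x := by
  by_cases h : u x ∈ C.U
  · exact Or.inl ⟨hu, C.opn.out hu h⟩
  · refine Or.inr ⟨hu, (C.isO_compl hpc hWc.isCompact).out hu ?_⟩
    rintro ⟨y, -, hy⟩
    exact h (hy ▸ C.mem y)

omit [T2Space X] hpc in
theorem agree : Form.pull id (Dif.map_on_mono inter_subset_left)
      (Form.pull C.f C.mf (Form.ofLin W hW)) =
    (Form.pull id (Dif.map_on_mono inter_subset_right) (0 : Form (D.on (C.c '' tsupport W)ᶜ)) :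
      Form (D.on (C.U ∩ (C.c '' tsupport W)ᶜ))) := by
  refine Form.ext_val fun E _ _ _ u x hu => ?_
  have h1 : (D.on C.U).At u x := ⟨hu.1, hu.2.mono fun y hy => hy.1⟩
  have h2 : (D.on (C.c '' tsupport W)ᶜ).At u x := ⟨hu.1, hu.2.mono fun y hy => hy.2⟩
  have h3 : C.f (u x) ∉ tsupport W := fun h => hu.2.self_of_nhds.2
    ⟨C.f (u x), h, C.cf _ hu.2.self_of_nhds.1⟩
  rw [Form.pull_val _ _ hu, Form.pull_val _ _ hu, Function.id_comp, Form.pull_val _ _ h1,
    Form.zero_val, Form.ofLin_val _ _ (C.mf h1)]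
  change Fm.pull _ (W (C.f (u x))) = 0
  rw [image_eq_zero_of_notMem_tsupport h3, map_zero]

/-- **the bump form** of a compactly supported form on `V` -/
noncomputable def bmp : Form D :=
  Form.glue (Form.pull C.f C.mf (Form.ofLin W hW)) (0 : Form (D.on (C.c '' tsupport W)ᶜ))
    (C.agree hW) (fun hu => C.cover_at hpc hWc hu)

variable {E : Type} [NormedAddCommGroup E] [NormedSpace ℝ E] [FiniteDimensional ℝ E]
    {u : E → X} {x : E}

theorem bmp_val (hu : D.At u x) (hx : u x ∈ C.U) :
    (C.bmp hpc hW hWc).val u x = Fm.pull (fderiv ℝ (C.f ∘ u) x) (W (C.f (u x))) := by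
  have h1 : (D.on C.U).At u x := ⟨hu, C.opn.out hu hx⟩
  refine (Form.glue_val_left _ _ _ (fun hu => C.cover_at hpc hWc hu) h1).trans ?_
  rw [Form.pull_val _ _ h1, Form.ofLin_val _ _ (C.mf h1)]
  rfl

theorem bmp_zero (hu : D.At u x) (hx : u x ∉ C.c '' tsupport W) :
    (C.bmp hpc hW hWc).val u x = 0 := by
  have h1 : (D.on (C.c '' tsupport W)ᶜ).At u x := ⟨hu, (C.isO_compl hpc hWc.isCompact).out hu hx⟩
  exact Form.glue_val_right _ _ _ (fun hu => C.cover_at hpc hWc hu) h1

end Top

end Cht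

end Vale.Agent.P231.S3I
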