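import Vale.Agent.P231.H584.BoxT

/-!
# P231, stage 3, integrality (S3I 1): images of boxes under equivariant maps
-/

set_option linter.unusedSectionVars false
set_option linter.unusedVariables false

open MeasureTheory Set Module Filter Topology
open scoped ContDiff Real

namespace Vale.Agent.P231.S3I

open Vale.Agent.P231.Fm Vale.Agent.P231.W Vale.Agent.P231.BX Vale.Agent.P231.H584
open Vale.Agent.P231.Fm.Form (IsDeg part isDeg_part)

variable {X Y : Type*} {D : Dif X} {D' : Dif Y}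

/-- basic forms are preserved by maps which are equivariant on a subset -/
theorem basic_pull_on {Φ : X × ℝ → X} {Φ' : Y × ℝ → Y} {O : Set X}
    (hΦ : ((D.on O).prod (Dif.lin ℝ)).Map (D.on O) Φ) (hΦ' : (D'.prod (Dif.lin ℝ)).Map D' Φ')
    {f : X → Y} (hf : (D.on O).Map D' f) (hc : ∀ x ∈ O, ∀ t, f (Φ (x, t)) = Φ' (f x, t))
    {w : Form D'} (hw : Basic Φ' hΦ' w) : Basic Φ hΦ (Form.pull f hf w) := by
  rw [basic_def]
  refine Form.ext_val fun V _ _ _ u x hu => ?_
  have h1 : (D'.prod (Dif.lin ℝ)).At (fun y => (f (u y).1, (u y).2)) x := ⟨hf hu.1, hu.2⟩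
  have h2 : (D.on O).At (fun y => (u y).1) x := hu.1
  have e1 : (Form.pull Φ hΦ (Form.pull f hf w)).val u x = w.val (f ∘ Φ ∘ u) x := by
    rw [Form.pull_val hΦ _ hu, Form.pull_val hf w (hΦ hu)]
  have e2 : (pr (Form.pull f hf w)).val u x = w.val (fun y => f (u y).1) x := by
    rw [pr, Form.pull_val Dif.map_fst _ hu, Form.pull_val hf w (Dif.map_fst hu)]
    rfl
  have e3 := congrArg (fun a : Form (D'.prod (Dif.lin ℝ)) =>
    a.val (fun y => (f (u y).1, (u y).2)) x) hw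
  simp only [pr] at e3
  rw [Form.pull_val hΦ' w h1, Form.pull_val Dif.map_fst w h1] at e3
  rw [e1, e2]
  refine Eq.trans ?_ e3
  refine w.congr (hf (hΦ hu)) ?_
  filter_upwards [hu.1.2] with y hy
  exact hc _ hy _

/-- the image of a box under a smooth map defined on a subset which contains the box -/
noncomputable def bmap (B : Bt D) {O : Set X} (hO : ∀ x, B.G x ∈ O) {f : X → Y}
    (hf : (D.on O).Map D' f) : Bt D' where
  E := B.E
  N := B.N
  b := B.b
  A := B.A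
  cpt := B.cpt
  cvx := B.cvx
  faces := B.faces
  G := fun x => f (B.G x)
  plot := fun x => hf (B.plot_on hO x)
  rng := by
    rintro _ ⟨x, rfl⟩
    obtain ⟨y, hy, hxy⟩ := B.rng ⟨x, rfl⟩
    exact ⟨y, hy, congrArg f hxy⟩

section

variable (B : Bt D) {O : Set X} (hO : ∀ x, B.G x ∈ O) {f : X → Y} (hf : (D.on O).Map D' f)

@[simp] theorem bmap_G (x : (bmap B hO hf).E) : (bmap B hO hf).G x = f (B.G x) := rfl

@[simp] theorem bmap_N : (bmap B hO hf).N = B.N := rfl

theorem bmap_LO {O' : Set Y} (hO' : ∀ x, (bmap B hO hf).G x ∈ O')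
    {O'' : Set X} (hO'' : ∀ x, B.G x ∈ O'') (hf' : (D.on O'').Map (D'.on O') f)
    (w : Form (D'.on O')) :
    (bmap B hO hf).LO hO' w = B.LO hO'' (Form.pull f hf' w) := by
  unfold Bt.LO
  rw [bxL_eq, bxL_eq]
  refine integral_congr_ae (Eventually.of_forall fun x => ?_)
  change evalForm (w.val (f ∘ B.G) x) B.b = evalForm ((Form.pull f hf' w).val B.G x) B.b
  rw [Form.pull_val hf' w (B.plot_on hO'' x)]

theorem bmap_L (w : Form D') : (bmap B hO hf).L w = B.LO hO (Form.pull f hf w) := by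
  unfold Bt.LO Bt.L
  rw [bxL_eq, bxL_eq]
  refine integral_congr_ae (Eventually.of_forall fun x => ?_)
  change evalForm (w.val (f ∘ B.G) x) B.b = evalForm ((Form.pull f hf w).val B.G x) B.b
  rw [Form.pull_val hf w (B.plot_on hO x)]

theorem bmap_L' (hf' : D.Map D' f) (w : Form D') :
    (bmap B hO hf).L w = B.L (Form.pull f hf' w) := by
  rw [bmap_L, ← B.LO_res hO]
  congr 1
  refine Form.ext_val fun V _ _ _ u x hu => ?_
  rw [Form.pull_val hf w hu, Form.res_val _ hu, Form.pull_val hf' w hu.1]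

variable {B hO hf} {T : ℝ} {Φ : X × ℝ → X} {Φ' : Y × ℝ → Y} {h : IsFlow D T Φ}
  (h' : IsFlow D' T Φ')

/-- the image of a good box under an equivariant map is good -/
theorem Good.bmap (hB : B.Good h) (hOo : Co.IsO D O) (hi : ∀ x ∈ O, ∀ t, Φ (x, t) ∈ O)
    (he : ∀ x ∈ O, ∀ t, f (Φ (x, t)) = Φ' (f x, t)) : (bmap B hO hf).Good h' := by
  intro O' hOo' hG' hi'
  refine ⟨fun w => bxL_part _ _ _ w, fun w hw => ?_⟩
  let O'' : Set X := {x | x ∈ O ∧ f x ∈ O'}
  have hO'' : ∀ x, B.G x ∈ O'' := fun x => ⟨hO x, hG' x⟩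
  have hOo'' : Co.IsO D O'' := ⟨fun {E} _ _ _ {u x} hu hx => by
    have h1 := hOo.out hu hx.1
    have h2 : D'.At (f ∘ u) x := hf ⟨hu, h1⟩
    filter_upwards [h1, hOo'.out h2 hx.2] with y hy1 hy2
    exact ⟨hy1, hy2⟩⟩
  have hi'' : ∀ x ∈ O'', ∀ t, Φ (x, t) ∈ O'' := fun x hx t =>
    ⟨hi x hx.1 t, by rw [he x hx.1]; exact hi' _ hx.2 t⟩
  have hf' : (D.on O'').Map (D'.on O') f := fun {E} _ _ _ {u x} hu =>
    ⟨hf ⟨hu.1, hu.2.mono fun y hy => hy.1⟩, hu.2.mono fun y hy => hy.2⟩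
  rw [bmap_LO B hO hf hG' hO'' hf', Form.pull_d]
  refine (hB O'' hOo'' hO'' hi'').bas _ ?_
  exact basic_pull_on (isFlow_on h hi'').map (isFlow_on h' hi').map hf'
    (fun x hx t => he x hx.1 t) hw

end

end Vale.Agent.P231.S3I
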