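import Vale.Agent.P231.H649.Sard

/-!
# P231, stage 3, integrality (S3I 2): generic vectors and families of projections
-/

set_option linter.unusedSectionVars false
set_option linter.unusedVariables false

open MeasureTheory Set Module Filter Topology
open scoped ContDiff Real

namespace Vale.Agent.P231.S3I

variable {V W : Type*} [NormedAddCommGroup V] [NormedSpace ℝ V] [FiniteDimensional ℝ V]
  [NormedAddCommGroup W] [NormedSpace ℝ W] [FiniteDimensional ℝ W]

/-- the kernel of a projection is spanned by the projections of few basis vectors -/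
theorem exists_idx {K : ℕ} (b : Basis (Fin K) ℝ W) {P : W →L[ℝ] W} (hid : ∀ x, P (P x) = P x)
    {r : ℕ} (hr : finrank ℝ (LinearMap.range (P : W →ₗ[ℝ] W)) = r) :
    ∃ j : Fin (K - r) → Fin K, ∀ a : W, P a = 0 →
      ∃ c : Fin (K - r) → ℝ, a = ∑ i, c i • (b (j i) - P (b (j i))) := by
  classical
  let N := LinearMap.ker (P : W →ₗ[ℝ] W)
  have hK : finrank ℝ W = K := by rw [finrank_eq_card_basis b, Fintype.card_fin]
  have hN : finrank ℝ N = K - r := by
    have h1 := LinearMap.finrank_range_add_finrank_ker (P : W →ₗ[ℝ] W)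
    rw [hr, hK] at h1
    have h2 : finrank ℝ N = finrank ℝ (LinearMap.ker (P : W →ₗ[ℝ] W)) := rfl
    omega
  have hmem : ∀ x, x - P x ∈ N := fun x => by
    change P (x - P x) = 0
    rw [map_sub, hid, sub_self]
  let v : Fin K → N := fun i => ⟨b i - P (b i), hmem _⟩
  have hspan : Submodule.span ℝ (Set.range v) = ⊤ := by
    rw [eq_top_iff]
    rintro ⟨a, ha⟩ -
    have ha' : P a = 0 := ha
    have h1 : (⟨a, ha⟩ : N) = ∑ i, b.repr a i • v i := by
      apply Subtype.ext
      rw [Submodule.coe_sum]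
      have h2 : ∑ i, b.repr a i • b i = a := b.sum_repr a
      have h3 : ∀ i, ((b.repr a i • v i : N) : W) = b.repr a i • b i - P (b.repr a i • b i) := by
        intro i
        change b.repr a i • (b i - P (b i)) = _
        rw [smul_sub, map_smul]
      simp only [h3]
      rw [Finset.sum_sub_distrib, ← map_sum, h2, ha', sub_zero]
    rw [h1]
    exact Submodule.sum_mem _ fun i _ => Submodule.smul_mem _ _ (Submodule.subset_span ⟨i, rfl⟩)
  obtain ⟨κ, j, hj, hs, hli⟩ := exists_linearIndependent' ℝ v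
  have hfin : Finite κ := Finite.of_injective j hj
  have : Fintype κ := Fintype.ofFinite κ
  have htop : Submodule.span ℝ (Set.range (v ∘ j)) = ⊤ := by rw [hs, hspan]
  have hcard : Fintype.card κ = K - r := by
    rw [← hN, ← finrank_span_eq_card hli, htop, finrank_top]
  let eq : Fin (K - r) ≃ κ := (finCongr hcard.symm).trans (Fintype.equivFin κ).symm
  refine ⟨fun r => j (eq r), fun a ha => ?_⟩
  have hm : (⟨a, ha⟩ : N) ∈ Submodule.span ℝ (Set.range (v ∘ j)) := by
    rw [htop]
    exact Submodule.mem_top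
  obtain ⟨c, hc⟩ := (Submodule.mem_span_range_iff_exists_fun ℝ).1 hm
  refine ⟨fun r => c (eq r), ?_⟩
  have h1 := congrArg Subtype.val hc
  rw [Submodule.coe_sum] at h1
  rw [← Equiv.sum_comp eq] at h1
  exact h1.symm

/-- **generic vectors**: the vectors killed by some projection of a small family form a null
set -/
theorem null_proj [MeasurableSpace W] [BorelSpace W] (μ : Measure W) [μ.IsAddHaarMeasure]
    {P : V → W →L[ℝ] W} {T : Set V} {r : ℕ} (hP : ∀ s ∈ T, DifferentiableAt ℝ P s)
    (hid : ∀ s ∈ T, ∀ x, P s (P s x) = P s x)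
    (hr : ∀ s ∈ T, finrank ℝ (LinearMap.range (P s : W →ₗ[ℝ] W)) = r)
    (hV : finrank ℝ V < r) : μ {a : W | ∃ s ∈ T, P s a = 0} = 0 := by
  classical
  rcases T.eq_empty_or_nonempty with hT | ⟨s₀, hs₀⟩
  · have h1 : {a : W | ∃ s ∈ T, P s a = 0} = ∅ := by
      ext a
      simp [hT]
    rw [h1, measure_empty]
  let K := finrank ℝ W
  let b : Basis (Fin K) ℝ W := finBasis ℝ W
  have hrK : r ≤ K := by
    rw [← hr s₀ hs₀]
    exact Submodule.finrank_le _
  let g : (Fin (K - r) → Fin K) → V × (Fin (K - r) → ℝ) → W :=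
    fun j p => ∑ i, p.2 i • (b (j i) - P p.1 (b (j i)))
  have hsub : {a : W | ∃ s ∈ T, P s a = 0} ⊆ ⋃ j, g j '' (T ×ˢ univ) := by
    rintro a ⟨s, hs, has⟩
    obtain ⟨j, hj⟩ := exists_idx b (hid s hs) (hr s hs)
    obtain ⟨c, hc⟩ := hj a has
    exact mem_iUnion.2 ⟨j, (s, c), ⟨hs, mem_univ _⟩, hc.symm⟩
  refine measure_mono_null hsub (measure_iUnion_null fun j => ?_)
  have hfr : finrank ℝ (V × (Fin (K - r) → ℝ)) < finrank ℝ W := by
    rw [finrank_prod, Module.finrank_fin_fun]
    change finrank ℝ V + (K - r) < K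
    omega
  refine H649.sard_ker μ hfr.le (T := T ×ˢ univ) ?_ fun p _ => Or.inl hfr
  rintro ⟨s, c⟩ ⟨hs, -⟩
  refine DifferentiableAt.fun_sum fun i _ => ?_
  have h1 : DifferentiableAt ℝ (fun p : V × (Fin (K - r) → ℝ) => P p.1) (s, c) :=
    DifferentiableAt.comp (s, c) (hP s hs) differentiableAt_fst
  have h2 : DifferentiableAt ℝ (fun p : V × (Fin (K - r) → ℝ) => p.2 i) (s, c) :=
    (differentiableAt_pi.1 differentiableAt_snd) i
  exact h2.smul ((differentiableAt_const _).sub (h1.clm_apply (differentiableAt_const _)))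

/-- existence of a generic vector -/
theorem exists_proj {P : V → W →L[ℝ] W} {T : Set V} {r : ℕ}
    (hP : ∀ s ∈ T, DifferentiableAt ℝ P s) (hid : ∀ s ∈ T, ∀ x, P s (P s x) = P s x)
    (hr : ∀ s ∈ T, finrank ℝ (LinearMap.range (P s : W →ₗ[ℝ] W)) = r)
    (hV : finrank ℝ V < r) : ∃ a : W, ∀ s ∈ T, P s a ≠ 0 := by
  borelize W
  have h1 := null_proj (Measure.addHaar : Measure W) hP hid hr hV
  by_contra hcon
  push Not at hcon
  have h2 : {a : W | ∃ s ∈ T, P s a = 0} = univ := by
    refine eq_univ_of_forall fun a => ?_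
    obtain ⟨s, hs, has⟩ := hcon a
    exact ⟨s, hs, has⟩
  rw [h2] at h1
  exact isOpen_univ.measure_ne_zero (Measure.addHaar : Measure W) univ_nonempty h1

end Vale.Agent.P231.S3I
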