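import Vale.Agent.P231.S3I.Chn
import Vale.Agent.P231.S3I.BtMap
import Vale.Agent.P231.S3I.Null

/-!
# P231, stage 3, integrality (S3I 6): the lifted box

A good box of dimension `l - 1` in the unit tangent bundle is lifted to the space of pairs by a
generic section; the next box of the tower is the projection of a good box in the space of pairs.
-/

set_option maxSynthPendingDepth 3
set_option linter.unusedSectionVars false
set_option linter.unusedVariables false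

open Bundle Manifold Set Filter Module MeasureTheory
open scoped ContDiff Manifold Topology ENNReal

namespace Vale.Agent.P231.S3I

noncomputable section

open Vale.Agent.P234 Vale.Agent.P231 Vale.Agent.P231.Fm Vale.Agent.P231.W Vale.Agent.P231.WR
open Vale.Agent.P231.H775 Vale.Agent.P231.WC Vale.Agent.P231.WF Vale.Agent.P231.S2N
open Vale.Agent.P231.TH
open Vale.Agent.P231.H584 (Bt)

variable {E : Type*} [NormedAddCommGroup E] [NormedSpace ℝ E]
  {M : Type*} [MetricSpace M] [ChartedSpace E M]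
  [RiemannianBundle (fun x : M => TangentSpace 𝓘(ℝ, E) x)]
  {e : ∀ x : M, TangentSpace 𝓘(ℝ, E) x → M}
  [FiniteDimensional ℝ E] [IsManifold 𝓘(ℝ, E) ∞ M]
  [IsContMDiffRiemannianBundle 𝓘(ℝ, E) ∞ E (fun x : M => TangentSpace 𝓘(ℝ, E) x)]
  [CompactSpace M] [ConnectedSpace M] [IsRiemannianManifold 𝓘(ℝ, E) M]

variable {D : ℝ}

variable {ι : Type} [Fintype ι] [DecidableEq ι]

variable {F : Facts e} {hD : 0 < D} {hB : InjGE e D} {hdiam : ∀ p q : M, dist p q ≤ D}
  {l : ℕ} {X δ : ι → UT E M → E} {ε : ℝ}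

variable (hP : ∀ x y : M, dist x y = D → finrank ℝ (H775.Pl e D x y) = l + 1)
  (h : Fam F hD hB hdiam l X δ ε)

include h in
/-- the number of steps of the chain -/
theorem exists_steps (B : Bt (dUT E M)) {O : Set (UT E M)} (hO : Opn (dUT E M) O)
    (hOi : ∀ v ∈ O, ∀ t, phi F (v, t) ∈ O) {H : UT E M × ℝ → UT E M}
    (hH : (((dUT E M).on O).prod (Dif.lin ℝ)).Map (dUT E M) H) (hG : ∀ x, B.G x ∈ O) :
    ∃ n : ℕ, 0 < n ∧ ∀ x t, ∀ s ∈ Icc (0 : ℝ) 1, ∀ s' ∈ Icc (0 : ℝ) 1, |s - s'| ≤ 1 / n →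
      ‖Pm F D X δ ε (H (phi F (B.G x, t), s)) - Pm F D X δ ε (H (phi F (B.G x, t), s'))‖ < 1 := by
  have hfl := isFlow_phi F hD hB hdiam
  let Θ : B.E × (ℝ × ℝ) → (EuclideanSpace ℝ ι →L[ℝ] EuclideanSpace ℝ ι) := fun q =>
    Pm F D X δ ε (H (phi F (B.G q.1, q.2.1), q.2.2))
  have hc : Continuous Θ := by
    refine continuous_iff_continuousAt.2 fun q => ?_
    have h1 : (dUT E M).At (fun q : B.E × (ℝ × ℝ) => B.G q.1) q :=
      (dUT E M).comp (u := B.G) (g := Prod.fst) (B.plot q.1) (Sm.of_contDiff contDiff_fst _)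
    have h2 : (dUT E M).At (fun q : B.E × (ℝ × ℝ) => phi F (B.G q.1, q.2.1)) q :=
      map_phi F (u := fun q : B.E × (ℝ × ℝ) => (B.G q.1, q.2.1))
        ⟨h1, Sm.of_contDiff (contDiff_fst.comp contDiff_snd) _⟩
    have h3 : (dUT E M).At (fun q : B.E × (ℝ × ℝ) => H (phi F (B.G q.1, q.2.1), q.2.2)) q :=
      hH (u := fun q : B.E × (ℝ × ℝ) => (phi F (B.G q.1, q.2.1), q.2.2))
        ⟨⟨h2, Eventually.of_forall fun y => hOi _ (hG _) _⟩,
          Sm.of_contDiff (contDiff_snd.comp contDiff_snd) _⟩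
    exact (h.sm_Pm h3).self_of_nhds.continuousAt
  have hK : IsCompact (B.A ×ˢ (Icc (0 : ℝ) (2 * D) ×ˢ Icc (0 : ℝ) 1)) :=
    B.cpt.prod (isCompact_Icc.prod isCompact_Icc)
  obtain ⟨r, hr, hr1⟩ := Metric.uniformContinuousOn_iff.1
    (hK.uniformContinuousOn_of_continuous hc.continuousOn) 1 one_pos
  obtain ⟨n, hn⟩ := exists_nat_gt (1 / r)
  have hn0 : (0 : ℝ) < n := lt_trans (by positivity) hn
  refine ⟨n, by exact_mod_cast hn0, fun x t s hs s' hs' hss => ?_⟩
  obtain ⟨y, hy, hxy⟩ := B.rng ⟨x, rfl⟩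
  have hT : (0 : ℝ) < 2 * D := by positivity
  have ht : phi F (B.G x, t) = phi F (B.G y, 2 * D * Int.fract (t / (2 * D))) := by
    rw [hxy, Bt.phi_fract hfl, mul_div_cancel₀ _ hT.ne']
  have ht' : 2 * D * Int.fract (t / (2 * D)) ∈ Icc (0 : ℝ) (2 * D) :=
    ⟨mul_nonneg hT.le (Int.fract_nonneg _), mul_le_of_le_one_right hT.le (Int.fract_lt_one _).le⟩
  have h1 : 1 / (n : ℝ) < r := by
    rw [div_lt_iff₀ hn0]
    rw [div_lt_iff₀ hr] at hn
    linarith
  have h2 : dist ((y, (2 * D * Int.fract (t / (2 * D)), s)) : B.E × (ℝ × ℝ))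
      (y, (2 * D * Int.fract (t / (2 * D)), s')) < r := by
    rw [Prod.dist_eq, Prod.dist_eq, dist_self, dist_self]
    simp only [Real.dist_eq]
    rw [max_eq_right (le_max_of_le_left le_rfl), max_eq_right (abs_nonneg _)]
    exact lt_of_le_of_lt hss h1
  have h3 := hr1 _ ⟨hy, ht', hs⟩ _ ⟨hy, ht', hs'⟩ h2
  rw [dist_eq_norm] at h3
  rw [ht]
  exact h3

theorem isO_of_opn {Y : Type*} {DY : Dif Y} {O : Set Y} (hO : Opn DY O) : Co.IsO DY O :=
  ⟨fun hu hx => hO.ev hu hx⟩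

/-- **the lifted box** -/
theorem exists_lift_box {α : Form (dUT E M)}
    (hα : Form.pull (phi F) (isFlow_phi F hD hB hdiam).map α = pr α + dt)
    (hlE : l + 1 < finrank ℝ E)
    (B : Bt (dUT E M)) (hBg : B.Good (isFlow_phi F hD hB hdiam)) (hBN : B.N + 1 = l) :
    ∃ BL : Bt (dPr e D), BL.Good (isFlow_Lam hP h) ∧ BL.N = B.N + 2 ∧
      ∃ B' : Bt (dUT E M), B'.Good (isFlow_phi F hD hB hdiam) ∧
        Bt.Ch (isFlow_phi F hD hB hdiam) ((2 * D)⁻¹ • α.d) B B' 1 ∧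
        ∀ w : Form (dUT E M), B'.L w = BL.L (Form.pull Pr.v map_v w) := by
  have hfl := isFlow_phi F hD hB hdiam
  have hfL := isFlow_Lam hP h
  have hT : (0 : ℝ) < 2 * D := by positivity
  -- the generic section
  obtain ⟨c, hc⟩ : ∃ c : EuclideanSpace ℝ ι, ∀ x ∈ (univ : Set B.E), Pm F D X δ ε (B.G x) c ≠ 0 :=
    exists_proj (r := l) (fun x _ => (h.sm_Pm (B.plot x)).self_of_nhds.differentiableAt (by simp))
      (fun x _ a => h.Pm_Pm _ a) (fun x _ => h.finrank_range _) (by rw [B.finrank_E]; omega)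
  replace hc : ∀ x, Pm F D X δ ε (B.G x) c ≠ 0 := fun x => hc x (mem_univ _)
  let b₀ : Pr e D := mkPr hP h (hc 0)
  let Oc : Set (UT E M) := {v | Pm F D X δ ε v c ≠ 0}
  have hOc : Co.IsO (dUT E M) Oc := ⟨fun {V} _ _ _ {u x} hu hx => by
    have h1 : ContDiffAt ℝ ∞ (fun s => Pm F D X δ ε (u s) c) x :=
      (h.sm_Pm hu).self_of_nhds.clm_apply contDiffAt_const
    exact h1.continuousAt.eventually_ne hx⟩
  have hOci : ∀ v ∈ Oc, ∀ t, phi F (v, t) ∈ Oc := fun v hv t => by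
    change Pm F D X δ ε (phi F (v, t)) c ≠ 0
    rw [Fam.Pm_phi F hD hB hdiam]
    exact hv
  let s : UT E M → Pr e D := fun v => mkp hP h b₀ v c
  have hs : ((dUT E M).on Oc).Map (dPr e D) s := fun {V} _ _ _ {u x} hu =>
    at_mkp hu.1 (Sm.of_contDiff contDiff_const _) hu.2.self_of_nhds
  have hse : ∀ v ∈ Oc, ∀ t, s (phi F (v, t)) = Lam hP h (s v, t) := fun v hv t =>
    (Lam_mkp hv t).symm
  have hBc : ∀ x, B.G x ∈ Oc := hc
  let B3 : Bt (dPr e D) := bmap B hBc hs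
  have hB3 : B3.Good hfL := Good.bmap hfL hBg hOc hOci hse
  -- the contraction
  obtain ⟨O, H, hH, hGO⟩ := exists_contr F hD hB hdiam hP (z := B.G) (T := univ)
    (fun x _ => B.plot x) (by rw [B.finrank_E]; omega) (by rw [B.finrank_E]; omega) (by omega)
  replace hGO : ∀ x, B.G x ∈ O := fun x => hGO x (mem_univ _)
  have hHm : (((dUT E M).on O).prod (Dif.lin ℝ)).Map (dUT E M) H := fun hu => (hH.map hu).1
  have hth : Thin ((dUT E M).on O) (dUT E M) (fun v => H (v, 1)) 0 :=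
    Thin.comp_left (g := id) hH.thin Dif.map_on
  obtain ⟨n, hn, hn1⟩ := exists_steps h B hH.opn hH.inv hHm hGO
  -- the domain
  let O₁ : Set (Pr e D) := core (Lam hP h) (Dm F hD hB hdiam X δ ε O H n)
  have hO₁ : Opn (dPr e D) O₁ := opn_core hT hfL (opn_Dm (hP := hP) (h := h) hH.opn hHm)
  have hO₁s : O₁ ⊆ Dm F hD hB hdiam X δ ε O H n := core_subset hfL
  have hO₁i : ∀ b ∈ O₁, ∀ t, Lam hP h (b, t) ∈ O₁ := fun b hb t => core_inv hfL hb t
  have hG3 : ∀ x, B3.G x ∈ O₁ := by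
    intro x t s hs
    have e1 : Lam hP h (B3.G x, t) = mkp hP h b₀ (phi F (B.G x, t)) c := Lam_mkp (hc x) t
    have hne : Pm F D X δ ε (phi F (B.G x, t)) c ≠ 0 := hOci _ (hc x) t
    rw [e1, mkp_v hne]
    refine ⟨hH.inv _ (hGO x) t, ?_⟩
    unfold tv'
    rw [mkp_v hne]
    set b := mkp hP h b₀ (phi F (B.G x, t)) c with hb
    have hbv : b.v = phi F (B.G x, t) := mkp_v hne
    have h0 : H (phi F (B.G x, t), 0) = phi F (B.G x, t) := hH.zero' (hH.inv _ (hGO x) t)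
    have h1 : Pm F D X δ ε (phi F (B.G x, t)) (ah F hD hB hdiam X δ ε b) =
        ah F hD hB hdiam X δ ε b := by
      rw [← hbv]
      exact Pm_ah hP h b
    have h2 : ah F hD hB hdiam X δ ε b ≠ 0 := by
      intro h3
      have h4 := norm_ah hP h b
      rw [h3, norm_zero] at h4
      exact zero_ne_one h4
    exact cn_ne' (Q := Qh F D X δ ε H (phi F (B.G x, t))) (fun t' a => h.Pm_Pm _ a)
      (by rw [Qh, h0]; exact h1) h2 hn hs (fun t₁ ht₁ t₂ ht₂ ht => hn1 x t t₁ ht₁ t₂ ht₂ ht)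
  -- the next box
  have hα' : Form.pull (Lam hP h) hfL.map (Form.pull Pr.v map_v α) =
      pr (Form.pull Pr.v map_v α) + dt := by
    rw [← H584.flow_nat hfL.map hfl.map map_v (fun b t => rfl), hα]
    refine (H584.pull_add (H584.map_cyl map_v) _ _).trans ?_
    rw [H584.pull_pr map_v, H584.pull_dt map_v]
  obtain ⟨BL, hBL, hch, -, -⟩ := Bt.exists_next hfL hT.ne' hα' B3 hB3 (isO_of_opn hO₁) hO₁i hG3
    (map_Hl (hP := hP) (h := h) (b₀ := b₀) (n := n) hH.opn hHm hO₁s)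
    (fun b hb => Hl_zero (hH.zero' (hO₁s hb 0 ⟨le_rfl, zero_le_one⟩).1))
    ((thin_Hl (b₀ := b₀) (by omega) hH.opn hHm hth hO₁s).mono (by
      change l - 1 ≤ B.N
      omega))
  have hv : ((dPr e D).on univ).Map (dUT E M) Pr.v := fun hu => map_v hu.1
  have hBu : ∀ x, BL.G x ∈ (univ : Set (Pr e D)) := fun x => mem_univ _
  have hL : ∀ w : Form (dUT E M), (bmap BL hBu hv).L w = BL.L (Form.pull Pr.v map_v w) :=
    fun w => bmap_L' BL hBu hv map_v w
  refine ⟨BL, hBL, hch.N, bmap BL hBu hv, ?_, ⟨hch.N, fun w hw hwb => ?_⟩, hL⟩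
  · exact Good.bmap hfl hBL ⟨fun _ _ => Eventually.of_forall fun _ => mem_univ _⟩
      (fun _ _ _ => mem_univ _) (fun b _ t => rfl)
  · have hwb' : Basic (Lam hP h) hfL.map (Form.pull Pr.v map_v w) :=
      H584.Basic.pull hfL.map hfl.map map_v (fun b t => rfl) hwb
    have hwd' : (Form.pull (Pr.v (e := e) (D := D)) map_v w).d = 0 := by
      rw [← Form.pull_d, hw]
      exact map_zero (Form.pullA Pr.v map_v)
    have h1 := hch.mul _ hwd' hwb'
    rw [hL, H584.pull_mul, H584.pull_pow, H584.pull_smul, Form.pull_d, h1]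
    refine (bmap_L B hBc hs _).trans ?_
    rw [← B.LO_res hBc]
    congr 1
    refine Form.ext_val fun V _ _ _ u x hu => ?_
    rw [Form.pull_val hs _ hu, Form.pull_val _ _ (hs hu), Form.res_val _ hu]
    refine w.congr (map_v (hs hu)) ?_
    filter_upwards [hu.2] with y hy
    exact mkp_v hy

end

end Vale.Agent.P231.S3I
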