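import Vale.Agent.P231.S3I.IntM
import Vale.Agent.P231.S3I.LiftBox
import Vale.Agent.P231.TH.Int7
import Vale.Agent.P231.S3M2.Box

/-!
# P231, stage 3, integrality (S3I 10): the boxes of the first tower, chosen before the base point of
the form on `M`; the integrality statements
-/

set_option maxSynthPendingDepth 3
set_option linter.unusedSectionVars false
set_option linter.unusedVariables false

open Bundle Manifold Set Filter Module MeasureTheory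
open scoped ContDiff Manifold Topology ENNReal Real

namespace Vale.Agent.P231.S3I

noncomputable section

open Vale.Agent.P234 Vale.Agent.P231 Vale.Agent.P231.Fm Vale.Agent.P231.W Vale.Agent.P231.WR
  Vale.Agent.P231.H766 Vale.Agent.P231.WG Vale.Agent.P231.S2II Vale.Agent.P231.WQ
  Vale.Agent.P231.L3
open Vale.Agent.P231.H584 (Bt ThinMap Sys Eqv)
open Vale.Agent.P231.Fm.Form (IsDeg)

section Abs

variable {B U M : Type*} {dB : Dif B} {dU : Dif U} {dM : Dif M} {D c : ℝ}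
  (S : Sys dB dU dM 1 D c)

/-- **the integer `m`**, from the integrals of `G₁` and `G₂` -/
theorem int_m_of (hP : S.PP) (hFd : IsDeg 8 S.F) {ε : ℝ} (hε : ε ^ 2 = 1) {l : Form dB}
    (hb : S.b1 = ε • S.b0 + l.d) {κ : ℝ} (hk : S.k ^ 2 = 4 * κ ^ 2) {u : Form dU}
    (hu : Eqv S.hφ.map (Form.pull S.pi S.hpi u) ((1 / 2 : ℝ) • (S.G1 + S.G2)))
    {B4 : Bt dU} {BL : Bt dB} (hBL : BL.Good S.hφ)
    (hL : ∀ w : Form dU, B4.L w = BL.L (Form.pull S.pi S.hpi w))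
    (h1 : ∃ m : ℤ, BL.L S.G1 = κ * m) (h2 : ∃ m : ℤ, BL.L S.G2 = κ * m) :
    ∃ m : ℤ, B4.L (S.P (S.b1 * S.G1)) = κ ^ 2 * m := by
  obtain ⟨m₁, hm₁⟩ := h1
  obtain ⟨m₂, hm₂⟩ := h2
  have h3 := val_b1G1 S hP hFd hb hu hL (fun w hw => hBL.tf.bas w hw)
  rw [hm₁, hm₂] at h3
  have h4 : (ε * S.k) ^ 2 = (2 * κ) ^ 2 := by rw [mul_pow, hε, hk]; ring
  rcases sq_eq_sq_iff_eq_or_eq_neg.1 h4 with h5 | h5
  · exact ⟨m₁ + m₂, by rw [h3, h5]; push_cast; ring⟩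
  · exact ⟨-(m₁ + m₂), by rw [h3, h5]; push_cast; ring⟩

end Abs

variable {E : Type*} [NormedAddCommGroup E] [NormedSpace ℝ E]
  {M : Type*} [MetricSpace M] [ChartedSpace E M]
  [RiemannianBundle (fun x : M => TangentSpace 𝓘(ℝ, E) x)]
  {e : ∀ x : M, TangentSpace 𝓘(ℝ, E) x → M}
  [FiniteDimensional ℝ E] [IsManifold 𝓘(ℝ, E) ∞ M]
  [IsContMDiffRiemannianBundle 𝓘(ℝ, E) ∞ E (fun x : M => TangentSpace 𝓘(ℝ, E) x)]
  [CompactSpace M] [ConnectedSpace M] [IsRiemannianManifold 𝓘(ℝ, E) M]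
  (F : Facts e) {D : ℝ} (hD : 0 < D) (hB : InjGE e D) (hdiam : ∀ p q : M, dist p q ≤ D)

/-- the boxes of the first tower -/
structure Bxs {Lm : Pr e D × ℝ → Pr e D} (hLm : IsFlow (dPr e D) (2 * D) Lm) where
  B2 : Bt (dUT E M)
  B4 : Bt (dUT E M)
  B6 : Bt (dUT E M)
  BL : Bt (dPr e D)
  g2 : B2.Good (isFlow_phi F hD hB hdiam)
  g4 : B4.Good (isFlow_phi F hD hB hdiam)
  g6 : B6.Good (isFlow_phi F hD hB hdiam)
  gL : BL.Good hLm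
  n2 : B2.N = 4
  n4 : B4.N = 8
  n6 : B6.N = 12
  nL : BL.N = 8
  hL : ∀ w : Form (dUT E M), B4.L w = BL.L (Form.pull Pr.v map_v w)
  c24 : Bt.Ch (isFlow_phi F hD hB hdiam) ((2 * D)⁻¹ • (CV.alpha E M).d) B2 B4 2
  c46 : Bt.Ch (isFlow_phi F hD hB hdiam) ((2 * D)⁻¹ • (CV.alpha E M).d) B4 B6 2
  e2 : B2.L (((2 * D)⁻¹ • (CV.alpha E M).d) ^ 2) = 1
  e4 : B4.L (((2 * D)⁻¹ • (CV.alpha E M).d) ^ 4) = 1
  e6 : B6.L (((2 * D)⁻¹ • (CV.alpha E M).d) ^ 6) = 1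

/-- **existence of the boxes** -/
theorem exists_bxs {l : ℕ} (hP : ∀ x y : M, dist x y = D → finrank ℝ (H775.Pl e D x y) = l + 1)
    (hl7 : l = 7) (hN : finrank ℝ E = 16) {ι : Type} [Fintype ι] [DecidableEq ι]
    {X δ : ι → UT E M → E} {ε : ℝ} (h : S2N.Fam F hD hB hdiam l X δ ε) :
    Nonempty (Bxs F hD hB hdiam (S2N.isFlow_Lam hP h)) := by
  have hα := CV.pull_phi_alpha (E := E) (M := M) F
  have hαo : (CV.alpha E M).sg = -CV.alpha E M := CV.isDeg_alpha.sg_of_odd (by norm_num)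
  obtain ⟨B2, B4, B6, g2, g4, g6, n2, n4, n6, ⟨BL, q1, q2, q3⟩, c24, c46, e2, e4, e6⟩ :=
    TH.tower_via F hD hB hdiam (l := l) hP hα hαo hl7 hN
      (Q := fun B4 => ∃ BL : Bt (dPr e D), BL.Good (S2N.isFlow_Lam hP h) ∧ BL.N = 8 ∧
        ∀ w : Form (dUT E M), B4.L w = BL.L (Form.pull Pr.v map_v w))
      (fun B hBg hBN => by
        obtain ⟨BL, k1, k2, B', k3, k4, k5⟩ := exists_lift_box hP h hα (by omega) B hBg
          (by omega)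
        exact ⟨B', k3, k4, BL, k1, by omega, k5⟩)
  exact ⟨⟨B2, B4, B6, BL, g2, g4, g6, q1, n2, n4, n6, q2, q3, c24, c46, e2, e4, e6⟩⟩

namespace Bxs

variable {F hD hB hdiam}
variable {Lm : Pr e D × ℝ → Pr e D} {hLm : IsFlow (dPr e D) (2 * D) Lm}
  (X : Bxs F hD hB hdiam hLm) (g : Pr e D × ℝ → M)

/-- the points of `M` which are not admitted as base points -/
def bad : Set M := range (fun y => g (X.BL.G y, 1)) ∪
  range (fun y => g (WR.Th F hD hB hdiam (X.BL.G y), 1))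

theorem null_bad (hg : ((dPr e D).prod (Dif.lin ℝ)).Map (dM E M) g) (hN : 8 < finrank ℝ E)
    (q : M) : S3M2.NullM E q (X.bad g) := by
  have h1 : finrank ℝ X.BL.E < finrank ℝ E := by
    rw [X.BL.finrank_E, X.nL]
    exact hN
  refine S3M2.NullM.union (S3M2.nullM_range (fun y => ?_) h1 q)
    (S3M2.nullM_range (fun y => ?_) h1 q)
  · exact H584.map_at hg 1 (X.BL.plot y)
  · exact H584.map_at hg 1 (map_Th F hD hB hdiam (X.BL.plot y))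

end Bxs

section seven

variable [MeasurableSpace M] [BorelSpace M]
  (hl : ∀ x y : M, dist x y = D → finrank ℝ (H775.Pl e D x y) = 2 * 3 + 2)
  (hN : finrank ℝ E = 15 + 1) (hE : 15 + 1 = (2 * 3 + 2) * (1 + 1))
  {p : M}
  {Pi : TangentSpace 𝓘(ℝ, E) p → TangentSpace 𝓘(ℝ, E) p →L[ℝ] TangentSpace 𝓘(ℝ, E) p}
  {o : TangentSpace 𝓘(ℝ, E) p → Fm.Lam (TangentSpace 𝓘(ℝ, E) p)}
  {ρ : TangentSpace 𝓘(ℝ, E) p → ℝ} {r₀ : ℝ}
  (hJ : FE.LineP e D p 3 Pi o) (hρ : WE.Rho e D p ρ r₀) {a : ℝ} (ha : a ≠ 0)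
  {Lm : Pr e D × ℝ → Pr e D} {Y : Pr e D → E} {ε₀ : ℝ} (hL : PushL F hD hB hdiam Lm Y ε₀)
  (g : Pr e D × ℝ → M) (hg : ((dPr e D).prod (Dif.lin ℝ)).Map (dM E M) g)
  (hg0 : ∀ b, g (b, 0) = foot b.v) (hg1 : ∀ b t, g (Lm (b, t), 1) = g (b, 1))
  {R : ℝ} (X : Fr e p R) (v0 : UT E M) {r : Eu E → ℝ} {K : Set (Eu E)} (hr : Q.Cut r K)
  (hDR : D < R) (b : OrthonormalBasis (Fin (15 + 1)) ℝ (Eu E))

/-- **the two integrality statements of S3-INT** for a base point `p` which is not bad -/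
theorem ints_bxs (bx : Bxs F hD hB hdiam hL.flow) (hbad : p ∉ bx.bad g)
    (hP : (inst F hD hB hdiam hl hN hE hJ hρ ha hL g hg hg0 hg1 X v0 hr hDR b).PP)
    {u : Form (dUT E M)}
    (hu : Eqv (inst F hD hB hdiam hl hN hE hJ hρ ha hL g hg hg0 hg1 X v0 hr hDR b).hφ.map
      (Form.pull (inst F hD hB hdiam hl hN hE hJ hρ ha hL g hg hg0 hg1 X v0 hr hDR b).pi
        (inst F hD hB hdiam hl hN hE hJ hρ ha hL g hg hg0 hg1 X v0 hr hDR b).hpi u)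
      ((1 / 2 : ℝ) • ((inst F hD hB hdiam hl hN hE hJ hρ ha hL g hg hg0 hg1 X v0 hr hDR b).G1 +
        (inst F hD hB hdiam hl hN hE hJ hρ ha hL g hg hg0 hg1 X v0 hr hDR b).G2)))
    {a' μ : ℝ} {σ : Form (dPr e D)}
    (hσ : Basic (inst F hD hB hdiam hl hN hE hJ hρ ha hL g hg hg0 hg1 X v0 hr hDR b).φ
      (inst F hD hB hdiam hl hN hE hJ hρ ha hL g hg hg0 hg1 X v0 hr hDR b).hφ.map σ)
    (hrel : (inst F hD hB hdiam hl hN hE hJ hρ ha hL g hg hg0 hg1 X v0 hr hDR b).b1 ^ 2 =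
      a' • (inst F hD hB hdiam hl hN hE hJ hρ ha hL g hg hg0 hg1 X v0 hr hDR b).e ^ 6 +
      μ • ((inst F hD hB hdiam hl hN hE hJ hρ ha hL g hg hg0 hg1 X v0 hr hDR b).e ^ 2 *
        ((inst F hD hB hdiam hl hN hE hJ hρ ha hL g hg hg0 hg1 X v0 hr hDR b).G1 +
          (inst F hD hB hdiam hl hN hE hJ hρ ha hL g hg hg0 hg1 X v0 hr hDR b).G2)) + σ.d)
    {ε : ℝ} (hε : ε ^ 2 = 1) {ℓ : Form (dPr e D)}
    (hℓ : (inst F hD hB hdiam hl hN hE hJ hρ ha hL g hg hg0 hg1 X v0 hr hDR b).b1 =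
      ε • (inst F hD hB hdiam hl hN hE hJ hρ ha hL g hg hg0 hg1 X v0 hr hDR b).b0 + ℓ.d)
    {p1 p2 p3 : Form (dUT E M)}
    (c1 : (inst F hD hB hdiam hl hN hE hJ hρ ha hL g hg hg0 hg1 X v0 hr hDR b).CE p1)
    (c2 : (inst F hD hB hdiam hl hN hE hJ hρ ha hL g hg hg0 hg1 X v0 hr hDR b).CE p2)
    (c3 : (inst F hD hB hdiam hl hN hE hJ hρ ha hL g hg hg0 hg1 X v0 hr hDR b).CE p3) {a₁ : ℝ}
    (h1 : H584.Eqv (isFlow_phi F hD hB hdiam).map p1 (a₁ • ((2 * D)⁻¹ • (CV.alpha E M).d) ^ 2))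
    {s : ℝ} (hs : s ^ 2 = 1)
    (hp : H584.Eqv (inst F hD hB hdiam hl hN hE hJ hρ ha hL g hg hg0 hg1 X v0 hr hDR b).hφ.map
      ((inst F hD hB hdiam hl hN hE hJ hρ ha hL g hg hg0 hg1 X v0 hr hDR b).b1 ^ 2)
      ((s * FE.kap 3 a ^ 2) • Form.pull
        (inst F hD hB hdiam hl hN hE hJ hρ ha hL g hg hg0 hg1 X v0 hr hDR b).pi
        (inst F hD hB hdiam hl hN hE hJ hρ ha hL g hg hg0 hg1 X v0 hr hDR b).hpi p3))
    (seg : ∀ B : Bt (dUT E M), B.Good (isFlow_phi F hD hB hdiam) →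
      (B.N = 4 → (inst F hD hB hdiam hl hN hE hJ hρ ha hL g hg hg0 hg1 X v0 hr hDR b).Z2
        B.L p1) ∧
      (B.N = 8 → (inst F hD hB hdiam hl hN hE hJ hρ ha hL g hg hg0 hg1 X v0 hr hDR b).Z4
        B.L p1 p2) ∧
      (B.N = 12 → (inst F hD hB hdiam hl hN hE hJ hρ ha hL g hg hg0 hg1 X v0 hr hDR b).Z6
        B.L p1 p2 p3)) :
    (∃ n : ℤ, 2 * μ / FE.kap 3 a = n) ∧
      ∃ n m : ℤ, a' / FE.kap 3 a ^ 2 = n + μ / FE.kap 3 a * m := by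
  have hα := CV.pull_phi_alpha (E := E) (M := M) F
  have hαo : (CV.alpha E M).sg = -CV.alpha E M := CV.isDeg_alpha.sg_of_odd (by norm_num)
  have hN16 : finrank ℝ E = 16 := hN
  obtain ⟨B4', B6', g4', g6', n4', n6', c46', hd', hx', e6'⟩ :=
    TH.tower_sph F hD hB hdiam hα hαo hl hρ a hN16 hJ
  have hkap := FE.kap_pos (a := a) 3 ha
  have hFd := S2II.isDeg_FF F hD hB hdiam hl hJ hρ a
  have hk := TH.inst_k_sq F hD hB hdiam hl hN hE hJ hρ ha hL g hg hg0 hg1 X v0 hr hDR b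
  have k1 : ∀ y, (fun b => g (b, 1)) (bx.BL.G y) ≠ p := fun y hy => hbad (Or.inl ⟨y, hy⟩)
  have k2 : ∀ y, (fun b => g (WR.Th F hD hB hdiam b, 1)) (bx.BL.G y) ≠ p := fun y hy =>
    hbad (Or.inr ⟨y, hy⟩)
  have hf2 : (dPr e D).Map (dM E M) (fun b => g (WR.Th F hD hB hdiam b, 1)) := fun h =>
    H584.map_at hg 1 (map_Th F hD hB hdiam h)
  have m1 : ∃ m : ℤ, bx.BL.L (inst F hD hB hdiam hl hN hE hJ hρ ha hL g hg hg0 hg1 X v0 hr hDR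
      b).G1 = FE.kap 3 a * m :=
    S3M2.int_kap F hD hB hdiam (n := 3) hl (by rw [hN]) hJ hρ a hL.flow bx.BL bx.gL bx.nL
      (H584.map_at hg 1) (fun b t => hg1 b t) k1
  have m2 : ∃ m : ℤ, bx.BL.L (inst F hD hB hdiam hl hN hE hJ hρ ha hL g hg hg0 hg1 X v0 hr hDR
      b).G2 = FE.kap 3 a * m := by
    obtain ⟨m, hm⟩ := S3M2.int_kap F hD hB hdiam (n := 3) hl (by rw [hN]) hJ hρ a hL.flow bx.BL
      bx.gL bx.nL hf2 (fun b t => by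
        rw [Th_Lam hL b t]
        exact hg1 _ t) k2
    refine ⟨m, ?_⟩
    rw [← hm]
    congr 1
    exact H584.pull_pull (map_Th F hD hB hdiam) (H584.map_at hg 1) hf2 (fun b => rfl) _
  obtain ⟨m, hm⟩ := int_m_of
    (inst F hD hB hdiam hl hN hE hJ hρ ha hL g hg hg0 hg1 X v0 hr hDR b) hP hFd hε hℓ hk hu
    (B4 := bx.B4) (BL := bx.BL) bx.gL bx.hL m1 m2
  obtain ⟨⟨N', m', -, k1⟩, k2⟩ := H584.Sys.int_asm
    (S := inst F hD hB hdiam hl hN hE hJ hρ ha hL g hg hg0 hg1 X v0 hr hDR b) hP hFd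
    hσ hrel hε hℓ hkap hk
    c1 c2 c3 h1 hs hp bx.g2 bx.g4 bx.g6 bx.c24 bx.c46 bx.e2 ((seg bx.B2 bx.g2).1 bx.n2)
    ((seg bx.B4 bx.g4).2.1 bx.n4) ((seg bx.B6 bx.g6).2.2 bx.n6) hm g4' g6' c46' hd' hx' e6'
    ((seg B4' g4').2.1 n4') ((seg B6' g6').2.2 n6')
  exact ⟨k2, N', m', k1⟩

end seven

end

end Vale.Agent.P231.S3I
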