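import Vale.Agent.P231.S3I.Mkp
import Vale.Agent.P231.TH.Main
import Vale.Agent.P231.H584.BoxT

/-!
# P231, stage 3, integrality (S3I 4): the lift of a homotopy to the space of pairs

The coefficient vector is transported along the homotopy by a chain of projections.
-/

set_option maxSynthPendingDepth 3
set_option linter.unusedSectionVars false
set_option linter.unusedVariables false

open Bundle Manifold Set Filter Module MeasureTheory
open scoped ContDiff Manifold Topology ENNReal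

namespace Vale.Agent.P231.S3I

noncomputable section

open Vale.Agent.P234 Vale.Agent.P231 Vale.Agent.P231.Fm Vale.Agent.P231.W Vale.Agent.P231.WR
open Vale.Agent.P231.H775 Vale.Agent.P231.WC Vale.Agent.P231.WF Vale.Agent.P231.S2N
open Vale.Agent.P231.TH

/-! ### chains of projections -/

section Abs

variable {W : Type*} [NormedAddCommGroup W] [NormedSpace ℝ W]

/-- the chain of the first `k` projections -/
def cn (Q : ℝ → W →L[ℝ] W) (n : ℕ) (s : ℝ) (a : W) : ℕ → W
  | 0 => a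
  | k + 1 => Q (s * ((k + 1 : ℕ) / n)) (cn Q n s a k)

variable {Q : ℝ → W →L[ℝ] W} {n : ℕ} {s : ℝ} {a : W}

theorem cn_zero (h : Q 0 a = a) (k : ℕ) : cn Q n 0 a k = a := by
  induction k with
  | zero => rfl
  | succ k ih =>
    rw [cn, ih, zero_mul, h]

theorem cn_fix (hid : ∀ t x, Q t (Q t x) = Q t x) (h : Q 0 a = a) (k : ℕ) :
    Q (s * (k / n)) (cn Q n s a k) = cn Q n s a k := by
  cases k with
  | zero => simpa [cn] using h
  | succ k => rw [cn, hid]

/-- the chain does not vanish -/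
theorem cn_ne (hid : ∀ t x, Q t (Q t x) = Q t x) (h : Q 0 a = a) (ha : a ≠ 0)
    (hQ : ∀ k < n, ‖Q (s * ((k + 1 : ℕ) / n)) - Q (s * (k / n))‖ < 1) (k : ℕ) (hk : k ≤ n) :
    cn Q n s a k ≠ 0 := by
  induction k with
  | zero => exact ha
  | succ k ih =>
    have h1 := ih (by omega)
    intro h0
    rw [cn] at h0
    have h2 : (Q (s * ((k + 1 : ℕ) / n)) - Q (s * (k / n))) (cn Q n s a k) =
        -cn Q n s a k := by
      rw [sub_apply, h0, cn_fix hid h, zero_sub]
    have h3 := (Q (s * ((k + 1 : ℕ) / n)) - Q (s * (k / n))).le_opNorm (cn Q n s a k)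
    rw [h2, norm_neg] at h3
    have h4 : 0 < ‖cn Q n s a k‖ := norm_pos_iff.2 h1
    have h5 := hQ k (by omega)
    nlinarith

theorem cn_ne' (hid : ∀ t x, Q t (Q t x) = Q t x) (h : Q 0 a = a) (ha : a ≠ 0) (hn : 0 < n)
    (hs : s ∈ Icc (0 : ℝ) 1)
    (hQ : ∀ t ∈ Icc (0 : ℝ) 1, ∀ t' ∈ Icc (0 : ℝ) 1, |t - t'| ≤ 1 / n → ‖Q t - Q t'‖ < 1) :
    Q s (cn Q n s a n) ≠ 0 := by
  have hn' : (0 : ℝ) < n := by exact_mod_cast hn
  have h1 : cn Q n s a n ≠ 0 := by
    refine cn_ne hid h ha (fun k hk => ?_) n le_rfl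
    have hk0 : (0 : ℝ) ≤ k := k.cast_nonneg
    have hk1 : (k : ℝ) + 1 ≤ n := by exact_mod_cast hk
    have m1 : s * ((k + 1 : ℕ) / n) ∈ Icc (0 : ℝ) 1 := by
      push_cast
      refine ⟨mul_nonneg hs.1 (by positivity), ?_⟩
      exact mul_le_one₀ hs.2 (by positivity) (by rw [div_le_one hn']; exact hk1)
    have m2 : s * (k / n) ∈ Icc (0 : ℝ) 1 := by
      refine ⟨mul_nonneg hs.1 (by positivity), ?_⟩
      exact mul_le_one₀ hs.2 (by positivity) (by rw [div_le_one hn']; linarith)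
    refine hQ _ m1 _ m2 ?_
    push_cast
    have h2 : s * ((k + 1) / n) - s * (k / n) = s * (1 / n) := by ring
    rw [h2, abs_of_nonneg (mul_nonneg hs.1 (by positivity))]
    exact mul_le_of_le_one_left (by positivity) hs.2
  have h2 := cn_fix (n := n) (s := s) hid h n
  rw [div_self hn'.ne', mul_one] at h2
  rwa [h2]

end Abs

variable {E : Type*} [NormedAddCommGroup E] [NormedSpace ℝ E]
  {M : Type*} [MetricSpace M] [ChartedSpace E M]
  [RiemannianBundle (fun x : M => TangentSpace 𝓘(ℝ, E) x)]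
  {e : ∀ x : M, TangentSpace 𝓘(ℝ, E) x → M}
  [FiniteDimensional ℝ E] [IsManifold 𝓘(ℝ, E) ∞ M]
  [IsContMDiffRiemannianBundle 𝓘(ℝ, E) ∞ E (fun x : M => TangentSpace 𝓘(ℝ, E) x)]
  [CompactSpace M] [ConnectedSpace M] [IsRiemannianManifold 𝓘(ℝ, E) M]

variable {D : ℝ}

variable {ι : Type} [Fintype ι] [DecidableEq ι]

variable {F : Facts e} {hD : 0 < D} {hB : InjGE e D} {hdiam : ∀ p q : M, dist p q ≤ D}
  {l : ℕ} {X δ : ι → UT E M → E} {ε : ℝ}

variable (hP : ∀ x y : M, dist x y = D → finrank ℝ (H775.Pl e D x y) = l + 1)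
  (h : Fam F hD hB hdiam l X δ ε)

/-- the projections along the track of `v` -/
def Qh (F : Facts e) (D : ℝ) (X δ : ι → UT E M → E) (ε : ℝ) (H : UT E M × ℝ → UT E M)
    (v : UT E M) (s : ℝ) : EuclideanSpace ℝ ι →L[ℝ] EuclideanSpace ℝ ι :=
  Pm F D X δ ε (H (v, s))

/-- the transported coefficient vector -/
def tv' (F : Facts e) (hD : 0 < D) (hB : InjGE e D) (hdiam : ∀ p q : M, dist p q ≤ D)
    (X δ : ι → UT E M → E) (ε : ℝ) (H : UT E M × ℝ → UT E M) (n : ℕ) (p : Pr e D × ℝ) :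
    EuclideanSpace ℝ ι :=
  cn (Qh F D X δ ε H p.1.v) n p.2 (ah F hD hB hdiam X δ ε p.1) n

/-- the points where the transport is defined -/
def Dm (F : Facts e) (hD : 0 < D) (hB : InjGE e D) (hdiam : ∀ p q : M, dist p q ≤ D)
    (X δ : ι → UT E M → E) (ε : ℝ) (O : Set (UT E M)) (H : UT E M × ℝ → UT E M) (n : ℕ) :
    Set (Pr e D) :=
  {b | ∀ s ∈ Icc (0 : ℝ) 1, b.v ∈ O ∧
    Pm F D X δ ε (H (b.v, s)) (tv' F hD hB hdiam X δ ε H n (b, s)) ≠ 0}

/-- **the lifted homotopy** -/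
def Hl (b₀ : Pr e D) (H : UT E M × ℝ → UT E M) (n : ℕ) (p : Pr e D × ℝ) : Pr e D :=
  mkp hP h b₀ (H (p.1.v, H584.stp p.2)) (tv' F hD hB hdiam X δ ε H n (p.1, H584.stp p.2))

theorem stp_mem (s : ℝ) : H584.stp s ∈ Icc (0 : ℝ) 1 :=
  ⟨Real.smoothTransition.nonneg s, Real.smoothTransition.le_one s⟩

variable {hP h} {b₀ : Pr e D} {O : Set (UT E M)} {H : UT E M × ℝ → UT E M} {n : ℕ}

section Plots

variable {E' : Type} [NormedAddCommGroup E'] [NormedSpace ℝ E'] [FiniteDimensional ℝ E']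

include hP h in
/-- the transport is smooth -/
theorem sm_tv (hO : Opn (dUT E M) O)
    (hH : (((dUT E M).on O).prod (Dif.lin ℝ)).Map (dUT E M) H) {u : E' → Pr e D} {s : E' → ℝ}
    {x : E'} (hu : (dPr e D).At u x) (hx : (u x).v ∈ O) (hs : Sm s x) :
    Sm (fun y => tv' F hD hB hdiam X δ ε H n (u y, s y)) x := by
  have h1 : ((dUT E M).on O).At (fun y => (u y).v) x := hO.at_on (map_v hu) hx
  have h2 : ∀ k : ℕ, Sm (fun y => cn (Qh F D X δ ε H (u y).v) n (s y)
      (ah F hD hB hdiam X δ ε (u y)) k) x := by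
    intro k
    induction k with
    | zero => exact sm_ah (hP := hP) (h := h) hu
    | succ k ih =>
      have h3 : Sm (fun y => s y * ((k + 1 : ℕ) / (n : ℝ))) x := by
        filter_upwards [hs] with y hy using hy.mul contDiffAt_const
      have h4 : (dUT E M).At (fun y => H ((u y).v, s y * ((k + 1 : ℕ) / (n : ℝ)))) x :=
        hH (u := fun y => ((u y).v, s y * ((k + 1 : ℕ) / (n : ℝ)))) ⟨h1, h3⟩
      filter_upwards [h.sm_Pm h4, ih] with y k1 k2 using k1.clm_apply k2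
  exact h2 n

end Plots

include hP h in
theorem opn_Dm (hO : Opn (dUT E M) O)
    (hH : (((dUT E M).on O).prod (Dif.lin ℝ)).Map (dUT E M) H) :
    Opn (dPr e D) (Dm F hD hB hdiam X δ ε O H n) := by
  refine Opn.forall_Icc (O := {p : Pr e D × ℝ | p.1.v ∈ O ∧
    Pm F D X δ ε (H (p.1.v, p.2)) (tv' F hD hB hdiam X δ ε H n p) ≠ 0}) ?_ 0 1
  refine ⟨fun {V} _ _ _ {u x} hu hx => ?_⟩
  have h1 : (dPr e D).At (fun y => (u y).1) x := hu.1
  have h2 := hO.ev (map_v h1) hx.1
  have h3 : (dUT E M).At (fun y => H ((u y).1.v, (u y).2)) x :=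
    hH (u := fun y => ((u y).1.v, (u y).2)) ⟨⟨map_v h1, h2⟩, hu.2⟩
  have h4 := sm_tv (hP := hP) (h := h) (n := n) hO hH h1 hx.1 hu.2
  have h5 : ContinuousAt (fun y => Pm F D X δ ε (H ((u y).1.v, (u y).2))
      (tv' F hD hB hdiam X δ ε H n ((u y).1, (u y).2))) x :=
    ((h.sm_Pm h3).self_of_nhds.clm_apply h4.self_of_nhds).continuousAt
  filter_upwards [h2, h5.eventually_ne hx.2] with y h6 h7
  exact ⟨h6, h7⟩

theorem map_Hl (hO : Opn (dUT E M) O)
    (hH : (((dUT E M).on O).prod (Dif.lin ℝ)).Map (dUT E M) H) {O' : Set (Pr e D)}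
    (hO' : O' ⊆ Dm F hD hB hdiam X δ ε O H n) :
    (((dPr e D).on O').prod (Dif.lin ℝ)).Map (dPr e D) (Hl hP h b₀ H n) := by
  intro V _ _ _ u x hu
  have h1 : (dPr e D).At (fun y => (u y).1) x := hu.1.1
  have h2 : (u x).1 ∈ O' := hu.1.2.self_of_nhds
  have h3 : Sm (fun y => H584.stp (u y).2) x :=
    Sm.comp (f := H584.stp) (g := fun y => (u y).2)
      (Sm.of_contDiff Real.smoothTransition.contDiff _) hu.2
  have h4 := hO' h2 _ (stp_mem (u x).2)
  have h5 : (dUT E M).At (fun y => H ((u y).1.v, H584.stp (u y).2)) x :=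
    hH (u := fun y => ((u y).1.v, H584.stp (u y).2)) ⟨hO.at_on (map_v h1) h4.1, h3⟩
  exact at_mkp h5 (sm_tv (hP := hP) (h := h) (n := n) hO hH h1 h4.1 h3) h4.2

theorem Hl_zero {b : Pr e D} (hH : H (b.v, 0) = b.v) : Hl hP h b₀ H n (b, 0) = b := by
  have h1 : tv' F hD hB hdiam X δ ε H n (b, 0) = ah F hD hB hdiam X δ ε b := by
    refine cn_zero ?_ n
    rw [Qh, hH]
    exact Pm_ah hP h b
  rw [Hl, H584.stp_zero le_rfl, h1, hH]
  exact mkp_ah b

/-- the end of the lifted homotopy is thin if the end of the homotopy is a point -/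
theorem thin_Hl (hl : 1 ≤ l) (hO : Opn (dUT E M) O)
    (hH : (((dUT E M).on O).prod (Dif.lin ℝ)).Map (dUT E M) H)
    (hth : Thin ((dUT E M).on O) (dUT E M) (fun v => H (v, 1)) 0) {O' : Set (Pr e D)}
    (hO' : O' ⊆ Dm F hD hB hdiam X δ ε O H n) :
    H584.ThinMap ((dPr e D).on O') (dPr e D) (fun b => Hl hP h b₀ H n (b, 1)) (l - 1) := by
  refine ⟨fun {V} _ _ _ {u x} hu => ?_⟩
  have h1 : (dPr e D).At u x := hu.1
  have h2 : u x ∈ O' := hu.2.self_of_nhds
  have h4 := hO' h2 1 ⟨zero_le_one, le_rfl⟩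
  have h5 : ((dUT E M).on O).At (fun y => (u y).v) x := hO.at_on (map_v h1) h4.1
  obtain ⟨F₀, _, _, _, v₀, g₀, hF₀, -, -, he⟩ := hth.fac h5
  have hsub : Subsingleton F₀ := by
    rw [← Module.finrank_zero_iff (R := ℝ)]
    omega
  set q : UT E M := H ((u x).v, 1) with hq
  have hc : ∀ᶠ y in 𝓝 x, H ((u y).v, 1) = q := by
    filter_upwards [he] with y hy
    have h6 : H ((u y).v, 1) = v₀ (g₀ y) := hy
    have h7 : H ((u x).v, 1) = v₀ (g₀ x) := he.self_of_nhds
    rw [h6, hq, h7, Subsingleton.elim (g₀ y) (g₀ x)]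
  -- the coefficient vectors
  let c : V → EuclideanSpace ℝ ι := fun y => tv' F hD hB hdiam X δ ε H n (u y, 1)
  have hcs : Sm c x := sm_tv (hP := hP) (h := h) (n := n) (s := fun _ => 1) hO hH h1 h4.1
    (Sm.of_contDiff contDiff_const _)
  let P : EuclideanSpace ℝ ι →L[ℝ] EuclideanSpace ℝ ι := Pm F D X δ ε q
  let a : V → EuclideanSpace ℝ ι := fun y => P (c y)
  have has : Sm a x := by
    filter_upwards [hcs] with y hy using contDiffAt_const.clm_apply hy
  set a₀ := a x with ha₀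
  have ha0 : a₀ ≠ 0 := h4.2
  have hPa : ∀ y, P (a y) = a y := fun y => h.Pm_Pm q (c y)
  -- the subspace
  let R := LinearMap.range ((P : EuclideanSpace ℝ ι →L[ℝ] EuclideanSpace ℝ ι) :
    EuclideanSpace ℝ ι →ₗ[ℝ] EuclideanSpace ℝ ι)
  let N : Submodule ℝ (EuclideanSpace ℝ ι) := (Submodule.span ℝ {a₀})ᗮ ⊓ R
  have haR : ∀ y, a y ∈ R := fun y => ⟨c y, rfl⟩
  have hN : finrank ℝ N = l - 1 := by
    have k1 := Submodule.finrank_add_inf_finrank_orthogonal
      (K₁ := Submodule.span ℝ {a₀}) (K₂ := R)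
      ((Submodule.span_singleton_le_iff_mem _ _).2 (haR x))
    rw [finrank_span_singleton ha0] at k1
    have k2 : finrank ℝ R = l := h.finrank_range q
    have k3 : finrank ℝ N = finrank ℝ ((Submodule.span ℝ {a₀})ᗮ ⊓ R :
      Submodule ℝ (EuclideanSpace ℝ ι)) := rfl
    omega
  -- the factorisation
  have hin : Sm (fun y => inner ℝ (a y) a₀) x := by
    filter_upwards [has] with y hy using hy.inner ℝ contDiffAt_const
  have hpos : ∀ᶠ y in 𝓝 x, (0 : ℝ) < inner ℝ (a y) a₀ := by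
    have k1 : (0 : ℝ) < inner ℝ (a x) a₀ := by
      rw [← ha₀, real_inner_self_eq_norm_sq]
      positivity
    exact hin.self_of_nhds.continuousAt.eventually (lt_mem_nhds k1)
  let z : V → EuclideanSpace ℝ ι := fun y => (‖a₀‖ ^ 2 / inner ℝ (a y) a₀) • a y
  have hz : Sm z x := by
    filter_upwards [has, hin, hpos] with y k1 k2 k3
    exact (contDiffAt_const.div k2 k3.ne').smul k1
  let g : V → N := fun y => N.orthogonalProjectionOnto (z y)
  have hg : Sm g x := by
    filter_upwards [hz] with y k1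
    exact (N.orthogonalProjectionOnto).contDiff.contDiffAt.comp y k1
  have hgv : ∀ y, (0 : ℝ) < inner ℝ (a y) a₀ → ((g y : N) : EuclideanSpace ℝ ι) = z y - a₀ := by
    intro y hy
    have k1 : z y - a₀ ∈ N := by
      refine ⟨Submodule.mem_orthogonal_singleton_iff_inner_right.2 ?_,
        Submodule.sub_mem _ (Submodule.smul_mem _ _ (haR y)) (haR x)⟩
      rw [inner_sub_right, inner_smul_right, real_inner_self_eq_norm_sq,
        real_inner_comm (a y) a₀, div_mul_cancel₀ _ hy.ne', sub_self]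
    have k2 : N.orthogonalProjectionOnto a₀ = 0 := by
      rw [Submodule.orthogonalProjectionOnto_eq_zero_iff]
      intro w hw
      have k3 := (Submodule.mem_orthogonal_singleton_iff_inner_right.1 hw.1)
      rwa [real_inner_comm] at k3
    have k3 : g y = N.orthogonalProjectionOnto (z y - a₀) := by
      rw [map_sub, k2, sub_zero]
    have k4 := Submodule.orthogonalProjectionOnto_mem_subspace_eq_self
      (⟨z y - a₀, k1⟩ : N)
    rw [k3]
    exact congrArg Subtype.val k4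
  refine ⟨N, inferInstance, inferInstance, inferInstance,
    fun w => mkp hP h b₀ q (a₀ + (w : EuclideanSpace ℝ ι)), g, hN.le, hg, ?_, ?_⟩
  · refine at_mkp (at_constUT q _) ?_ ?_
    · exact Sm.of_contDiff (contDiff_const.add N.subtypeL.contDiff) _
    · rw [hgv x hpos.self_of_nhds]
      have k1 : z x = a₀ := by
        change (‖a₀‖ ^ 2 / inner ℝ (a x) a₀) • a x = a₀
        rw [← ha₀, real_inner_self_eq_norm_sq, div_self (pow_ne_zero 2 (norm_ne_zero_iff.2 ha0)),
          one_smul]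
      rw [k1, sub_self, add_zero]
      have k2 : Pm F D X δ ε q a₀ = a₀ := hPa x
      rw [k2]
      exact ha0
  · filter_upwards [hc, hpos] with y k1 k2
    have k3 : a y ≠ 0 := by
      intro h0
      rw [h0, inner_zero_left] at k2
      exact lt_irrefl _ k2
    change Hl hP h b₀ H n (u y, 1) = mkp hP h b₀ q (a₀ + ((g y : N) : EuclideanSpace ℝ ι))
    rw [hgv y k2, add_sub_cancel, Hl, H584.stp_one le_rfl, k1]
    change mkp hP h b₀ q (c y) = mkp hP h b₀ q ((‖a₀‖ ^ 2 / inner ℝ (a y) a₀) • a y)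
    have k4 : 0 < ‖a₀‖ ^ 2 / inner ℝ (a y) a₀ :=
      div_pos (pow_pos (norm_pos_iff.2 ha0) 2) k2
    have k5 : Pm F D X δ ε q (a y) ≠ 0 := by
      have : Pm F D X δ ε q (a y) = a y := hPa y
      rwa [this]
    rw [mkp_smul k4 k5]
    exact mkp_Pm.symm

end

end Vale.Agent.P231.S3I
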