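import Vale.Agent.P231.S3I.Cht
import Vale.Agent.P231.S3I.BtMap
import Vale.Agent.P231.BX.Open

/-!
# P231, stage 3, integrality (S3I 7): the integral of a bump form over a box
-/

set_option linter.unusedSectionVars false
set_option linter.unusedVariables false

open MeasureTheory Set Module Filter Topology Metric
open scoped ContDiff Real

namespace Vale.Agent.P231.S3I

open Vale.Agent.P231.Fm Vale.Agent.P231.W Vale.Agent.P231.WF Vale.Agent.P231.BX
open Vale.Agent.P231.TW Vale.Agent.P231.H584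

/-- the image of a null set under a differentiable map between spaces of the same dimension has
dense complement -/
theorem exists_notMem_image {V₁ V : Type*} [NormedAddCommGroup V₁] [NormedSpace ℝ V₁]
    [FiniteDimensional ℝ V₁] [MeasurableSpace V₁] [BorelSpace V₁] [NormedAddCommGroup V]
    [NormedSpace ℝ V] [FiniteDimensional ℝ V] (μ : Measure V₁) [μ.IsAddHaarMeasure]
    (L : V ≃L[ℝ] V₁) {f : V₁ → V} {S : Set V₁} (hf : ∀ x ∈ S, DifferentiableAt ℝ f x)
    (hS : μ S = 0) : ∃ y : V, y ∉ f '' S := by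
  have h1 : μ ((fun x => L (f x)) '' S) = 0 := by
    refine addHaar_image_eq_zero_of_differentiableOn_of_addHaar_eq_zero μ (fun x hx => ?_) hS
    exact (L.differentiableAt.comp x (hf x hx)).differentiableWithinAt
  obtain ⟨z, hz⟩ : ∃ z, z ∉ (fun x => L (f x)) '' S := by
    by_contra hcon
    push Not at hcon
    rw [eq_univ_of_forall hcon] at h1
    exact isOpen_univ.measure_ne_zero μ univ_nonempty h1
  refine ⟨L.symm z, ?_⟩
  rintro ⟨x, hx, hxz⟩
  exact hz ⟨x, hx, by change L (f x) = z; rw [hxz, L.apply_symm_apply]⟩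

variable {X : Type*} [TopologicalSpace X] [T2Space X] {D : Dif X} {V : Type}
  [NormedAddCommGroup V] [NormedSpace ℝ V] [FiniteDimensional ℝ V] [MeasurableSpace V]
  [BorelSpace V]

/-- **the integral of a bump form over a box**: near some point of the chart the integral of the
bump forms is an integer multiple of the integral over the chart -/
theorem int_bmp (hpc : PlotsCont D) (C : Cht D V) (B : Bt D) (bV : Basis (Fin B.N) ℝ V) :
    ∃ (y₀ : V) (r : ℝ), 0 < r ∧ ∃ n : ℤ, ∀ (W : V → Lam V) (hW : ContDiff ℝ ∞ W)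
      (hWc : HasCompactSupport W), tsupport W ⊆ ball y₀ r →
        B.L (C.bmp hpc hW hWc) = n * JJ bV W := by
  have hGc : Continuous B.G := continuous_iff_continuousAt.2 fun x => hpc (B.plot x)
  have hsm : ∀ x, B.G x ∈ C.U → ContDiffAt ℝ ∞ (fun x => C.f (B.G x)) x := fun x hx => by
    have h1 : Sm (C.f ∘ B.G) x := C.mf ⟨B.plot x, C.opn.out (B.plot x) hx⟩
    exact h1.self_of_nhds
  -- the image of the faces
  let S : Set V := C.c ⁻¹' (B.G '' frontier B.A)
  have hfr : frontier B.A ⊆ B.A := B.cpt.isClosed.frontier_subset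
  have hfc : IsCompact (frontier B.A) := B.cpt.of_isClosed_subset isClosed_frontier hfr
  have hS : IsClosed S := (hfc.image hGc).isClosed.preimage (C.continuous_c hpc)
  have hSs : S ⊆ (fun x => C.f (B.G x)) '' (frontier B.A ∩ B.G ⁻¹' C.U) := by
    rintro v ⟨x, hx, hxv⟩
    have h1 : B.G x ∈ C.U := by
      rw [hxv]
      exact C.mem v
    exact ⟨x, ⟨hx, h1⟩, by change C.f (B.G x) = v; rw [hxv, C.fc]⟩
  let L : V ≃L[ℝ] B.E := (bV.equiv B.b (Equiv.refl _)).toContinuousLinearEquiv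
  obtain ⟨y₀, hy₀⟩ : ∃ y : V, y ∉ S := by
    obtain ⟨y, hy⟩ := exists_notMem_image (S := frontier B.A ∩ B.G ⁻¹' C.U) B.b.addHaar L
      (f := fun x => C.f (B.G x)) (fun x hx => (hsm x hx.2).differentiableAt (by simp))
      (measure_mono_null inter_subset_left B.null_frontier)
    exact ⟨y, fun h => hy (hSs h)⟩
  obtain ⟨r, hr, hrS⟩ := Metric.isOpen_iff.1 hS.isOpen_compl y₀ hy₀
  -- the domain
  let Z₀ : Set B.E := interior B.A ∩ B.G ⁻¹' C.U
  have hU : IsOpen (B.G ⁻¹' C.U) := isOpen_iff_mem_nhds.2 fun x hx => C.opn.out (B.plot x) hx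
  have hZ : IsOpen Z₀ := isOpen_interior.inter hU
  have hΨ : ContDiffOn ℝ ∞ (fun x => C.f (B.G x)) Z₀ := fun x hx =>
    (hsm x hx.2).contDiffWithinAt
  have hin : ∀ x ∈ B.A, ∀ v ∈ ball y₀ r, B.G x = C.c v → x ∈ interior B.A := by
    intro x hx v hv hxv
    by_contra h1
    have h2 : x ∈ frontier B.A := by
      rw [B.cpt.isClosed.frontier_eq]
      exact ⟨hx, h1⟩
    exact hrS hv ⟨x, h2, hxv⟩
  have hp : ∀ K ⊆ ball y₀ r, IsCompact K →
      IsCompact (Z₀ ∩ (fun x => C.f (B.G x)) ⁻¹' K) := by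
    intro K hK hKc
    have h1 : Z₀ ∩ (fun x => C.f (B.G x)) ⁻¹' K = B.A ∩ B.G ⁻¹' (C.c '' K) := by
      ext x
      constructor
      · rintro ⟨⟨h1, h2⟩, h3⟩
        exact ⟨interior_subset h1, ⟨C.f (B.G x), h3, C.cf _ h2⟩⟩
      · rintro ⟨h1, ⟨v, hv, hxv⟩⟩
        have h2 : B.G x ∈ C.U := by
          rw [← hxv]
          exact C.mem v
        refine ⟨⟨hin x h1 v (hK hv) hxv.symm, h2⟩, ?_⟩
        change C.f (B.G x) ∈ K
        rw [← hxv, C.fc]
        exact hv
    rw [h1]
    exact B.cpt.inter_right ((C.isClosed_image hpc hKc).preimage hGc)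
  obtain ⟨n, hn⟩ := exists_int_open B.b bV hZ isOpen_ball (convex_ball y₀ r) hΨ hp
  refine ⟨y₀, r, hr, n, fun W hW hWc hWs => ?_⟩
  rw [← hn W hW hWc hWs, B.L_eq]
  unfold JD
  have h1 : ∀ x ∈ B.A \ Z₀, evalForm ((C.bmp hpc hW hWc).val B.G x) B.b = 0 := by
    rintro x ⟨hx, hxZ⟩
    rw [C.bmp_zero hpc hW hWc (B.plot x), evalForm_apply, map_zero, map_zero]
    rintro ⟨v, hv, hxv⟩
    refine hxZ ⟨hin x hx v (hWs hv) hxv.symm, ?_⟩
    change B.G x ∈ C.U
    rw [← hxv]
    exact C.mem v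
  refine (setIntegral_eq_of_subset_of_forall_sdiff_eq_zero B.cpt.isClosed.measurableSet
    (fun x hx => interior_subset hx.1) h1).trans ?_
  refine setIntegral_congr_fun hZ.measurableSet fun x hx => ?_
  change evalForm ((C.bmp hpc hW hWc).val B.G x) B.b = evalForm (pb (fun x => C.f (B.G x)) W x) B.b
  rw [C.bmp_val hpc hW hWc (B.plot x) hx.2]
  rfl

/-- a compactly supported form of top degree with integral one -/
theorem exists_bump {N : ℕ} (bV : Basis (Fin N) ℝ V) (y₀ : V) {r : ℝ} (hr : 0 < r) :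
    ∃ (g : V → ℝ) (τ : Lam V), ContDiff ℝ ∞ g ∧ HasCompactSupport g ∧ tsupport g ⊆ ball y₀ r ∧
      Q.IsDeg N τ ∧ evalForm τ bV = 1 ∧ JJ bV (fun x => g x • τ) = 1 := by
  obtain ⟨τ, hτ1, hτ2⟩ := exists_top bV
  let φ : ContDiffBump y₀ := ⟨r / 4, r / 2, by linarith, by linarith⟩
  refine ⟨φ.normed bV.addHaar, τ, φ.contDiff_normed, φ.hasCompactSupport_normed, ?_, hτ2, hτ1, ?_⟩
  · rw [φ.tsupport_normed_eq]
    exact closedBall_subset_ball (by change r / 2 < r; linarith)
  · unfold JJ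
    have h1 : ∀ x, evalForm (φ.normed bV.addHaar x • τ) bV = φ.normed bV.addHaar x := fun x => by
      have h2 : evalForm (φ.normed bV.addHaar x • τ) bV =
          φ.normed bV.addHaar x • evalForm τ bV := (evalL bV).map_smul _ τ
      rw [h2, hτ1, smul_eq_mul, mul_one]
    simp only [h1]
    exact φ.integral_normed

end Vale.Agent.P231.S3I
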