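import Vale.Agent.P231.S3I.Deg
import Vale.Agent.P231.TH.Main

/-!
# P231, stage 3, integrality (S3I 8): the integral over a good box of the pull-back of the form on
`M` by an invariant map
-/

set_option maxSynthPendingDepth 3
set_option linter.unusedSectionVars false
set_option linter.unusedVariables false

open Bundle Manifold Set Filter Module MeasureTheory
open scoped ContDiff Manifold Topology

namespace Vale.Agent.P231.S3I

noncomputable section

open Vale.Agent.P234 Vale.Agent.P231 Vale.Agent.P231.Fm Vale.Agent.P231.W Vale.Agent.P231.WR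
open Vale.Agent.P231.H775 Vale.Agent.P231.CoC Vale.Agent.P231.WF Vale.Agent.P231.WE
open Vale.Agent.P231.H584 Vale.Agent.P231.TH Vale.Agent.P231.TW

variable {E : Type*} [NormedAddCommGroup E] [NormedSpace ℝ E] [FiniteDimensional ℝ E]
  {M : Type*} [MetricSpace M] [ChartedSpace E M] [IsManifold 𝓘(ℝ, E) ∞ M]
  [RiemannianBundle (fun x : M => TangentSpace 𝓘(ℝ, E) x)]
  [IsContMDiffRiemannianBundle 𝓘(ℝ, E) ∞ E (fun x : M => TangentSpace 𝓘(ℝ, E) x)]
  [CompactSpace M] [ConnectedSpace M] [IsRiemannianManifold 𝓘(ℝ, E) M]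
  {e : ∀ x : M, TangentSpace 𝓘(ℝ, E) x → M}

theorem plotsCont_dC (F : Facts e) (D : ℝ) (q : M) : PlotsCont (dC e D q) := by
  intro V _ _ _ u x hu
  exact plotsCont_dM E M (map_dC F D q hu)

/-- a form on `M` outside `q` is cohomologous to its restriction to the cut locus -/
theorem res_eq_cut (F : Facts e) {D : ℝ} (hD : 0 < D) (hB : InjGE e D)
    (hdiam : ∀ p q : M, dist p q ≤ D) {l : ℕ}
    (hl : ∀ x y : M, dist x y = D → finrank ℝ (Pl e D x y) = l + 1) (q : M)
    {w : Form (dM E M)} (hw : w.d = 0) :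
    ∃ η : Form ((dM E M).on (pc q)), Form.res (pc q) w =
      Form.pull (cutPt e D q) (map_cut F hD hB hdiam hl q) (Form.pull id (map_dC F D q) w) +
        η.d := by
  have hR : (((dM E M).on (pc q)).prod (Dif.lin ℝ)).Map (dM E M) (Rt e D q) :=
    map_Rt F hD hB hdiam hl q
  have h1 := homotopy' (Form.pull (Rt e D q) hR w)
  have h2 : (Form.pull (Rt e D q) hR w).d = 0 := by
    rw [← Form.pull_d, hw]
    exact Form.pull_zero' _ hR
  have h3 : at_ 1 (Form.pull (Rt e D q) hR w) = Form.res (pc q) w := by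
    refine Form.ext_val fun V _ _ _ u x hu => ?_
    rw [at_, Form.pull_val _ _ hu, Form.pull_val hR w ((Form.map_slice 1) hu), Form.res_val _ hu]
    refine w.congr (hR ((Form.map_slice 1) hu)) ?_
    filter_upwards [hu.2] with y hy
    exact Rt_one F hB hy
  have h4 : at_ 0 (Form.pull (Rt e D q) hR w) =
      Form.pull (cutPt e D q) (map_cut F hD hB hdiam hl q) (Form.pull id (map_dC F D q) w) := by
    refine Form.ext_val fun V _ _ _ u x hu => ?_
    have k1 := map_cut F hD hB hdiam hl q hu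
    rw [at_, Form.pull_val _ _ hu, Form.pull_val hR w ((Form.map_slice 0) hu),
      Form.pull_val _ _ hu, Form.pull_val (map_dC F D q) w k1]
    refine w.congr (hR ((Form.map_slice 0) hu)) ?_
    filter_upwards [hu.2] with y hy
    exact Rt_zero F
  have h5 : Form.K (0 : Form (((dM E M).on (pc q)).prod (Dif.lin ℝ))) = 0 := H584.K_zero
  rw [h2, h5, zero_add, h3, h4, sub_eq_iff_eq_add] at h1
  exact ⟨_, by rw [h1]; exact add_comm _ _⟩

/-- the form `w` on `M` restricts to every cut locus as a bump form of integral `± κ` -/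
def CutForm (F : Facts e) (D : ℝ) (w : Form (dM E M)) (N : ℕ) (κ : ℝ) : Prop :=
  ∀ q : M, ∃ (V : Type) (_ : NormedAddCommGroup V) (_ : NormedSpace ℝ V)
    (_ : FiniteDimensional ℝ V) (_ : MeasurableSpace V) (_ : BorelSpace V)
    (b : Basis (Fin N) ℝ V) (C : Cht (dC e D q) V) (c₀ : ℝ), c₀ ^ 2 = κ ^ 2 ∧
    ∀ (g : V → ℝ) (τ : Lam V) (hg : ContDiff ℝ ∞ fun x => g x • τ)
      (hgc : HasCompactSupport fun x => g x • τ), ContDiff ℝ ∞ g → HasCompactSupport g →
      Q.IsDeg N τ → JJ b (fun x => g x • τ) = 1 →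
      ∃ η : Form (dC e D q), Form.pull id (map_dC F D q) w =
        c₀ • C.bmp (plotsCont_dC F D q) hg hgc + η.d

/-- **integrality**: the integral over a good box of the pull-back of `w` by an invariant map -/
theorem int_inv (F : Facts e) {D : ℝ} (hD : 0 < D) (hB : InjGE e D)
    (hdiam : ∀ p q : M, dist p q ≤ D) {l : ℕ}
    (hl : ∀ x y : M, dist x y = D → finrank ℝ (Pl e D x y) = l + 1)
    {w : Form (dM E M)} (hw : w.d = 0) {N : ℕ} {κ : ℝ} (hC : CutForm F D w N κ)
    {X : Type*} {DX : Dif X} {T : ℝ} {Φ : X × ℝ → X} (h : IsFlow DX T Φ) (B : Bt DX)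
    (hBg : B.Good h) (hN : B.N = N) (hNE : N < finrank ℝ E) {f : X → M}
    (hf : DX.Map (dM E M) f) (hfi : ∀ x t, f (Φ (x, t)) = f x) :
    ∃ m : ℤ, B.L (Form.pull f hf w) = κ * m := by
  subst hN
  -- a missed point
  obtain ⟨q, hq⟩ := exists_miss F hD hB (f := fun x => f (B.G x)) (T := (univ : Set B.E))
    (fun x _ => by
      have h1 : (dM E M).At (f ∘ B.G) x := hf (B.plot x)
      exact h1.self_of_nhds) (by rw [B.finrank_E]; exact hNE)
  obtain ⟨V, _, _, _, _, _, b, C, c₀, hc₀, hbm⟩ := hC q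
  -- the open set
  let O : Set X := {x | f x ∈ pc q}
  have hO : Co.IsO DX O := ⟨fun {V} _ _ _ {u x} hu hx => (opn_pc q).ev (hf hu) hx⟩
  have hOi : ∀ x ∈ O, ∀ t, Φ (x, t) ∈ O := fun x hx t => by
    change f (Φ (x, t)) ∈ pc q
    rw [hfi]
    exact hx
  have hG : ∀ x, B.G x ∈ O := fun x => hq x (mem_univ _)
  have hf1 : (DX.on O).Map ((dM E M).on (pc q)) f := fun {V} _ _ _ {u x} hu =>
    ⟨hf hu.1, hu.2⟩
  have hf2 : (DX.on O).Map (dC e D q) (fun x => cutPt e D q (f x)) := fun hu =>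
    map_cut F hD hB hdiam hl q (hf1 hu)
  have hflO := isFlow_on h hOi
  -- basic forms
  have hz1 : ∀ η : Form ((dM E M).on (pc q)), B.LO hG (Form.pull f hf1 η.d) = 0 := by
    intro η
    rw [Form.pull_d]
    refine (hBg O hO hG hOi).bas _ ?_
    exact basic_pull hf1 hfi η
  have hz2 : ∀ η : Form (dC e D q), B.LO hG (Form.pull _ hf2 η.d) = 0 := by
    intro η
    rw [Form.pull_d]
    refine (hBg O hO hG hOi).bas _ ?_
    exact basic_pull hf2 (fun x t => by rw [hfi]) η
  -- the box in the cut locus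
  let B' : Bt (dC e D q) := bmap B hG hf2
  obtain ⟨y₀, r, hr, n, hn⟩ := int_bmp (plotsCont_dC F D q) C B' b
  obtain ⟨g, τ, hg, hgc, hgs, hτ, -, hJ⟩ := exists_bump b y₀ hr
  have hW : ContDiff ℝ ∞ fun x => g x • τ := hg.smul contDiff_const
  have hWc : HasCompactSupport fun x => g x • τ := hgc.smul_right
  have hWs : tsupport (fun x => g x • τ) ⊆ Metric.ball y₀ r :=
    (closure_mono (Function.support_smul_subset_left g fun _ => τ)).trans hgs
  obtain ⟨η₂, hη₂⟩ := hbm g τ hW hWc hg hgc hτ hJ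
  obtain ⟨η₁, hη₁⟩ := res_eq_cut F hD hB hdiam hl q hw
  have h1 : B.L (Form.pull f hf w) = B.LO hG (Form.pull f hf1 (Form.res (pc q) w)) := by
    rw [← B.LO_res hG]
    congr 1
    refine Form.ext_val fun V _ _ _ u x hu => ?_
    rw [Form.res_val _ hu, Form.pull_val hf w hu.1, Form.pull_val hf1 _ hu,
      Form.res_val _ (hf1 hu)]
  have h2 : Form.pull f hf1 (Form.pull (cutPt e D q) (map_cut F hD hB hdiam hl q)
      (Form.pull id (map_dC F D q) w)) = Form.pull _ hf2 (Form.pull id (map_dC F D q) w) :=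
    H584.pull_pull hf1 (map_cut F hD hB hdiam hl q) hf2 (fun x => rfl) _
  have h3 : B.LO hG (Form.pull _ hf2 (C.bmp (plotsCont_dC F D q) hW hWc)) = n := by
    have k1 := hn _ hW hWc hWs
    rw [bmap_L] at k1
    have k2 : (n : ℝ) * JJ b (fun x => g x • τ) = n := by rw [hJ, mul_one]
    exact k1.trans k2
  have h4 : B.L (Form.pull f hf w) = c₀ * n := by
    rw [h1, hη₁, pull_add, map_add, hz1, add_zero, h2, hη₂, pull_add, map_add, hz2, add_zero,
      pull_smul, map_smul, h3, smul_eq_mul]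
  rcases sq_eq_sq_iff_eq_or_eq_neg.1 hc₀ with h5 | h5
  · exact ⟨n, by rw [h4, h5]⟩
  · exact ⟨-n, by rw [h4, h5]; push_cast; ring⟩

end

end Vale.Agent.P231.S3I
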