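import Vale.Agent.P231.S3I.IntG

/-!
# P231, stage 3, integrality (S3I 9): the integer `m`
-/

set_option maxSynthPendingDepth 3
set_option linter.unusedSectionVars false
set_option linter.unusedVariables false

open Bundle Manifold Set Filter Module MeasureTheory
open scoped ContDiff Manifold Topology

namespace Vale.Agent.P231.S3I

noncomputable section

open Vale.Agent.P234 Vale.Agent.P231 Vale.Agent.P231.Fm Vale.Agent.P231.W
open Vale.Agent.P231.H775 Vale.Agent.P231.CoC Vale.Agent.P231.H584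
open Vale.Agent.P231.Fm.Form (IsDeg)

section Abs

variable {B U M : Type*} {dB : Dif B} {dU : Dif U} {dM : Dif M} {D c : ℝ}
  (S : Sys dB dU dM 1 D c)

/-- **the value of the fibre integral of `b₁ G₁`** on a functional which is the restriction of a
functional on the space of pairs -/
theorem val_b1G1 (hP : S.PP) (hFd : IsDeg 8 S.F) {ε : ℝ} {l : Form dB}
    (hl : S.b1 = ε • S.b0 + l.d) {u : Form dU}
    (hu : Eqv S.hφ.map (Form.pull S.pi S.hpi u) ((1 / 2 : ℝ) • (S.G1 + S.G2)))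
    {L4 : Form dU →ₗ[ℝ] ℝ} {LB : Form dB →ₗ[ℝ] ℝ}
    (hL : ∀ w : Form dU, L4 w = LB (Form.pull S.pi S.hpi w))
    (hLB : ∀ w : Form dB, Basic S.φ S.hφ.map w → LB w.d = 0) :
    L4 (S.P (S.b1 * S.G1)) = (ε * S.k) * (LB S.G1 + LB S.G2) / 2 := by
  obtain ⟨r, hr, hr'⟩ := hu
  have h1 : S.G1 + S.G2 = (2 : ℝ) • Form.pull S.pi S.hpi u - (2 : ℝ) • r.d := by
    rw [hr', smul_add, smul_smul]
    norm_num
  have h2 : S.b1 * r.d = (S.b1 * r).d := by
    rw [Form.d_mul, S.b1_d, zero_mul, zero_add, S.b1_sg]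
  have h3 : S.P (S.b1 * (S.G1 + S.G2)) = (2 * (ε * S.k)) • u - (2 : ℝ) • (S.P (S.b1 * r)).d := by
    rw [h1, mul_sub, mul_smul_comm, mul_smul_comm, h2, map_sub, map_smul, map_smul, S.hPm, S.hPd,
      Sys.P_b1 hP hFd hl, smul_mul_assoc, one_mul, smul_smul]
  have hL4 : ∀ w : Form dU, Basic S.φU S.hφU.map w → L4 w.d = 0 := fun w hw => by
    rw [hL, Form.pull_d]
    exact hLB _ (Basic.pull S.hφ.map S.hφU.map S.hpi S.hpφ hw)
  have h4 : L4 (S.P (S.b1 * (S.G1 + S.G2))) = 2 * (ε * S.k) * L4 u := by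
    rw [h3, map_sub, map_smul, map_smul, hL4 _ (hP.bas _ (Basic.mul S.b1_basic hr)), smul_eq_mul,
      smul_zero, sub_zero]
  rw [Sys.P_b1G hP hFd, map_smul, smul_eq_mul] at h4
  have h5 : L4 u = (LB S.G1 + LB S.G2) / 2 := by
    rw [hL, hr', map_add, hLB _ hr, map_smul, map_add, smul_eq_mul]
    ring
  have h6 : L4 (S.P (S.b1 * S.G1)) = (ε * S.k) * L4 u := by linarith
  rw [h6, h5]
  ring

end Abs

variable {E : Type*} [NormedAddCommGroup E] [NormedSpace ℝ E] [FiniteDimensional ℝ E]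
  {M : Type*} [MetricSpace M] [ChartedSpace E M] [IsManifold 𝓘(ℝ, E) ∞ M]
  [RiemannianBundle (fun x : M => TangentSpace 𝓘(ℝ, E) x)]
  [IsContMDiffRiemannianBundle 𝓘(ℝ, E) ∞ E (fun x : M => TangentSpace 𝓘(ℝ, E) x)]
  [CompactSpace M] [ConnectedSpace M] [IsRiemannianManifold 𝓘(ℝ, E) M]
  {e : ∀ x : M, TangentSpace 𝓘(ℝ, E) x → M}

/-- **the integer `m`**: the fibre integral of `b₁ G₁` on the box of dimension `8` -/
theorem int_m (F : Facts e) {D : ℝ} (hD : 0 < D) (hB : InjGE e D)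
    (hdiam : ∀ p q : M, dist p q ≤ D) {l : ℕ}
    (hl : ∀ x y : M, dist x y = D → finrank ℝ (Pl e D x y) = l + 1) (hE : 8 < finrank ℝ E)
    {B U : Type*} {dB : Dif B} {dU : Dif U} {c : ℝ} (S : Sys dB dU (dM E M) 1 D c)
    (hP : S.PP) (hFd : IsDeg 8 S.F) {ε : ℝ} (hε : ε ^ 2 = 1) {l : Form dB}
    (hb : S.b1 = ε • S.b0 + l.d) {κ : ℝ} (hk : S.k ^ 2 = 4 * κ ^ 2) {u : Form dU}
    (hu : Eqv S.hφ.map (Form.pull S.pi S.hpi u) ((1 / 2 : ℝ) • (S.G1 + S.G2)))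
    (hC : CutForm F D S.F 8 κ) {B4 : Bt dU} {BL : Bt dB} (hBL : BL.Good S.hφ) (hN : BL.N = 8)
    (hL : ∀ w : Form dU, B4.L w = BL.L (Form.pull S.pi S.hpi w)) :
    ∃ m : ℤ, B4.L (S.P (S.b1 * S.G1)) = κ ^ 2 * m := by
  obtain ⟨m₁, hm₁⟩ := int_inv F hD hB hdiam hl S.hF hC S.hφ BL hBL hN hE
    (f := fun b => S.g (b, 1)) (map_at S.hg 1) (fun b t => S.hg1 b t)
  have hf2 : dB.Map (dM E M) (fun b => S.g (S.σ b, 1)) := fun h => map_at S.hg 1 (S.hσ h)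
  obtain ⟨m₂, hm₂⟩ := int_inv F hD hB hdiam hl S.hF hC S.hφ BL hBL hN hE
    (f := fun b => S.g (S.σ b, 1)) hf2 (fun b t => by rw [S.hσφ, S.hg1])
  have h1 : BL.L S.G1 = κ * m₁ := hm₁
  have h2 : BL.L S.G2 = κ * m₂ := by
    rw [← hm₂]
    congr 1
    exact H584.pull_pull S.hσ (map_at S.hg 1) hf2 (fun b => rfl) S.F
  have h3 := val_b1G1 S hP hFd hb hu hL (fun w hw => hBL.tf.bas w hw)
  rw [h1, h2] at h3
  have h4 : (ε * S.k) ^ 2 = (2 * κ) ^ 2 := by rw [mul_pow, hε, hk]; ring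
  rcases sq_eq_sq_iff_eq_or_eq_neg.1 h4 with h5 | h5
  · exact ⟨m₁ + m₂, by rw [h3, h5]; push_cast; ring⟩
  · exact ⟨-(m₁ + m₂), by rw [h3, h5]; push_cast; ring⟩

end

end Vale.Agent.P231.S3I
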