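import Vale.Agent.P231.S2N.Main

/-!
# P231, stage 3, integrality (S3I 3): pairs and coefficient vectors

The space of pairs is the unit sphere bundle of the bundle of the negative spaces: a pair `b` is
determined by `b.v` and its normalised coefficient vector `ah b`, a unit vector in the range of the
projection `Pm b.v`.
-/

set_option maxSynthPendingDepth 3
set_option linter.unusedSectionVars false
set_option linter.unusedVariables false

open Bundle Manifold Set Filter Module MeasureTheory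
open scoped ContDiff Manifold Topology ENNReal

namespace Vale.Agent.P231.S3I

noncomputable section

open Vale.Agent.P234 Vale.Agent.P231 Vale.Agent.P231.Fm Vale.Agent.P231.W Vale.Agent.P231.WR
open Vale.Agent.P231.H775 Vale.Agent.P231.WC Vale.Agent.P231.WF Vale.Agent.P231.S2N

variable {E : Type*} [NormedAddCommGroup E] [NormedSpace ℝ E]
  {M : Type*} [MetricSpace M] [ChartedSpace E M]
  [RiemannianBundle (fun x : M => TangentSpace 𝓘(ℝ, E) x)]
  {e : ∀ x : M, TangentSpace 𝓘(ℝ, E) x → M}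
  [FiniteDimensional ℝ E] [IsManifold 𝓘(ℝ, E) ∞ M]
  [IsContMDiffRiemannianBundle 𝓘(ℝ, E) ∞ E (fun x : M => TangentSpace 𝓘(ℝ, E) x)]
  [CompactSpace M] [ConnectedSpace M] [IsRiemannianManifold 𝓘(ℝ, E) M]

variable {D : ℝ}

section Plots

variable {E' : Type} [NormedAddCommGroup E'] [NormedSpace ℝ E'] [FiniteDimensional ℝ E']

theorem at_nrm' {f : E' → M} {a : E' → E} {x : E'} (ha : (dTM E M).At (fun s => tb (f s) (a s)) x)
    (h0 : a x ≠ 0) : (dTM E M).At (fun s => tb (f s) (nrm (f s) (a s))) x := by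
  rw [at_tb] at ha ⊢
  have h1 : ContDiffAt ℝ ∞ (fun s => nm (f s) (a s) ^ 2) x := SmV.norm_sq ha.self_of_nhds
  have h2 : ∀ᶠ s in 𝓝 x, nm (f s) (a s) ^ 2 ≠ 0 :=
    h1.continuousAt.eventually_ne (pow_ne_zero 2 (nm_ne_zero h0))
  filter_upwards [ha, h2] with s hs hs2
  have hs0 : nm (f s) (a s) ≠ 0 := fun h => hs2 (by rw [h]; norm_num)
  have h3 : ContDiffAt ℝ ∞ (fun s => nm (f s) (a s) ^ 2) s := SmV.norm_sq hs
  have h5 : ∀ s, Real.sqrt (nm (f s) (a s) ^ 2) = nm (f s) (a s) := fun s =>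
    Real.sqrt_sq (norm_nonneg (E := TangentSpace 𝓘(ℝ, E) (f s)) (a s))
  have h4 : ContDiffAt ℝ ∞ (fun s => (nm (f s) (a s))⁻¹) s := by
    have k : ContDiffAt ℝ ∞ (fun s => (Real.sqrt (nm (f s) (a s) ^ 2))⁻¹) s := by
      refine ContDiffAt.inv (ContDiffAt.sqrt h3 hs2) ?_
      rw [h5]
      exact hs0
    simpa only [h5] using k
  exact SmV.smul h4 hs

end Plots

variable {ι : Type} [Fintype ι] [DecidableEq ι]

variable {F : Facts e} {hD : 0 < D} {hB : InjGE e D} {hdiam : ∀ p q : M, dist p q ≤ D}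
  {l : ℕ} {X δ : ι → UT E M → E} {ε : ℝ}

variable (hP : ∀ x y : M, dist x y = D → finrank ℝ (H775.Pl e D x y) = l + 1)
  (h : Fam F hD hB hdiam l X δ ε)

include hP h in
theorem Th_ne {v : UT E M} {a : EuclideanSpace ℝ ι} (ha : Pm F D X δ ε v a ≠ 0) :
    Th0 F hD hB hdiam (XX X (Pm F D X δ ε v a)) v ≠ 0 := fun h0 =>
  ha (h.inj hP v (h.Pm_Pm v a) h0)

/-- the pair with the first vector `v` whose coefficient vector is proportional to the
projection of `a`, if this projection does not vanish -/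
def mkPr {v : UT E M} {a : EuclideanSpace ℝ ι} (ha : Pm F D X δ ε v a ≠ 0) : Pr e D :=
  ⟨(v, W.mk (foot v) (nrm (foot v) (Th0 F hD hB hdiam (XX X (Pm F D X δ ε v a)) v))
      (nm_nrm (Th_ne hP h ha))),
    (isL_iff F hD hB hdiam (v := v) (nm_nrm (Th_ne hP h ha))).1
      (Submodule.smul_mem _ _ (Th0_mem F hD hB hdiam _ v))⟩

open Classical in
/-- the pair with the first vector `v` whose coefficient vector is proportional to the
projection of `a` -/
def mkp (b₀ : Pr e D) (v : UT E M) (a : EuclideanSpace ℝ ι) : Pr e D :=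
  if ha : Pm F D X δ ε v a ≠ 0 then mkPr hP h ha else b₀

variable {hP h} {b₀ : Pr e D} {v : UT E M} {a : EuclideanSpace ℝ ι}

theorem mkp_pos (ha : Pm F D X δ ε v a ≠ 0) : mkp hP h b₀ v a = mkPr hP h ha := dif_pos ha

theorem mkp_neg (ha : Pm F D X δ ε v a = 0) : mkp hP h b₀ v a = b₀ := dif_neg (not_not.2 ha)

theorem mkp_v (ha : Pm F D X δ ε v a ≠ 0) : (mkp hP h b₀ v a).v = v := by
  rw [mkp_pos ha]
  rfl

theorem mkp_w (ha : Pm F D X δ ε v a ≠ 0) : vec' (mkp hP h b₀ v a).w =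
    nrm (foot v) (Th0 F hD hB hdiam (XX X (Pm F D X δ ε v a)) v) := by
  rw [mkp_pos ha]
  rfl

theorem ah_mkp (ha : Pm F D X δ ε v a ≠ 0) : ah F hD hB hdiam X δ ε (mkp hP h b₀ v a) =
    ‖Pm F D X δ ε v a‖⁻¹ • Pm F D X δ ε v a := by
  have h1 : ab F hD hB hdiam X δ ε (mkp hP h b₀ v a) =
      (nm (foot v) (Th0 F hD hB hdiam (XX X (Pm F D X δ ε v a)) v))⁻¹ • Pm F D X δ ε v a := by
    unfold ab
    rw [mkp_w ha, mkp_v ha, nrm, am_smul, h.am_unique hP v (h.Pm_Pm v a) rfl]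
  unfold ah
  rw [h1]
  exact ah_smul_aux (inv_pos.2 (nm_pos' (Th_ne hP h ha))) _

theorem Pm_ah' (b : Pr e D) (hP : ∀ x y : M, dist x y = D → finrank ℝ (H775.Pl e D x y) = l + 1)
    (h : Fam F hD hB hdiam l X δ ε) :
    Pm F D X δ ε b.v (ah F hD hB hdiam X δ ε b) ≠ 0 := by
  rw [Pm_ah hP h]
  intro h0
  have h1 := norm_ah hP h b
  rw [h0, norm_zero] at h1
  exact zero_ne_one h1

theorem mkp_ah (b : Pr e D) : mkp hP h b₀ b.v (ah F hD hB hdiam X δ ε b) = b := by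
  have h0 := Pm_ah' b hP h
  have h3 : Th0 F hD hB hdiam (XX X (ah F hD hB hdiam X δ ε b)) b.v =
      ‖ab F hD hB hdiam X δ ε b‖⁻¹ • vec' b.w := by
    have k := h.Th0_am hP b.v b.isL.mem_Lf
    rw [Th0_XX] at k ⊢
    rw [← k, Finset.smul_sum]
    refine Finset.sum_congr rfl fun i _ => ?_
    unfold ah
    rw [PiLp.smul_apply, smul_eq_mul, mul_smul]
    rfl
  refine Pr.ext' (mkp_v h0) ?_
  refine Eq.trans ?_ (mk_eta b.w)
  rw [← mk_eta (mkp hP h b₀ b.v (ah F hD hB hdiam X δ ε b)).w]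
  refine mk_congr ?_ ?_
  · rw [(mkp hP h b₀ b.v (ah F hD hB hdiam X δ ε b)).isL.foot_eq, mkp_v h0, b.isL.foot_eq]
  · rw [mkp_w h0, Pm_ah hP h, h3, nrm_smul (inv_pos.2 (norm_pos_iff.2 (ab_ne hP h b)))]
    exact nrm_of_one (Pr.nm_w b)

include hP h in
/-- a pair is determined by its first vector and its normalised coefficient vector -/
theorem ext_ah {b b' : Pr e D} (hv : b.v = b'.v)
    (ha : ah F hD hB hdiam X δ ε b = ah F hD hB hdiam X δ ε b') : b = b' := by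
  rw [← mkp_ah (hP := hP) (h := h) (b₀ := b) b, ← mkp_ah (hP := hP) (h := h) (b₀ := b) b', hv, ha]

theorem mkp_smul {c : ℝ} (hc : 0 < c) (ha : Pm F D X δ ε v a ≠ 0) :
    mkp hP h b₀ v (c • a) = mkp hP h b₀ v a := by
  have h1 : Pm F D X δ ε v (c • a) ≠ 0 := by
    rw [map_smul]
    exact smul_ne_zero hc.ne' ha
  refine ext_ah (hP := hP) (h := h) ?_ ?_
  · rw [mkp_v h1, mkp_v ha]
  · rw [ah_mkp h1, ah_mkp ha, map_smul]
    exact ah_smul_aux hc _

theorem mkp_Pm : mkp hP h b₀ v (Pm F D X δ ε v a) = mkp hP h b₀ v a := by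
  by_cases ha : Pm F D X δ ε v a = 0
  · have h1 : Pm F D X δ ε v (Pm F D X δ ε v a) = 0 := by rw [h.Pm_Pm, ha]
    rw [mkp_neg h1, mkp_neg ha]
  · have h1 : Pm F D X δ ε v (Pm F D X δ ε v a) ≠ 0 := by rwa [h.Pm_Pm]
    refine ext_ah (hP := hP) (h := h) ?_ ?_
    · rw [mkp_v h1, mkp_v ha]
    · rw [ah_mkp h1, ah_mkp ha, h.Pm_Pm]

/-- the lifted flow -/
theorem Lam_mkp (ha : Pm F D X δ ε v a ≠ 0) (t : ℝ) :
    Lam hP h (mkp hP h b₀ v a, t) = mkp hP h b₀ (phi F (v, t)) a := by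
  have h1 : Pm F D X δ ε (phi F (v, t)) a ≠ 0 := by rwa [Fam.Pm_phi F hD hB hdiam]
  refine ext_ah (hP := hP) (h := h) ?_ ?_
  · rw [Lam_v, mkp_v ha, mkp_v h1]
  · rw [ah_Lam hP h, ah_mkp ha, ah_mkp h1, Fam.Pm_phi F hD hB hdiam]

section Plots

variable {E' : Type} [NormedAddCommGroup E'] [NormedSpace ℝ E'] [FiniteDimensional ℝ E']

include hP h in
/-- the coefficient vector is smooth -/
theorem sm_ah {u : E' → Pr e D} {x : E'} (hu : (dPr e D).At u x) :
    Sm (fun s => ah F hD hB hdiam X δ ε (u s)) x := by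
  have h1 : (dUT E M).At (fun s => (u s).v) x := map_v hu
  have h2 : Sm (fun s => ab F hD hB hdiam X δ ε (u s)) x := h.sm_am hP h1 (at_w hu)
  filter_upwards [h2] with s hs
  have k := ab_ne hP h (u s)
  exact ((hs.norm ℝ k).inv (norm_ne_zero_iff.2 k)).smul hs

/-- smooth families of pairs -/
theorem at_mkp {u : E' → UT E M} {c : E' → EuclideanSpace ℝ ι} {x : E'}
    (hu : (dUT E M).At u x) (hc : Sm c x) (h0 : Pm F D X δ ε (u x) (c x) ≠ 0) :
    (dPr e D).At (fun s => mkp hP h b₀ (u s) (c s)) x := by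
  have h1 : Sm (fun s => Pm F D X δ ε (u s) (c s)) x := by
    filter_upwards [h.sm_Pm hu, hc] with s k1 k2 using k1.clm_apply k2
  have hTh : ∀ i, Fld (Th0 F hD hB hdiam (X i)) := fun i =>
    fld_Th0 F hD hB hdiam hP (h.df i).fld
  have h3 := at_XX hTh hu h1
  have h5 : (dTM E M).At (fun s => tb (foot (u s)) (Th0 F hD hB hdiam
      (XX X (Pm F D X δ ε (u s) (c s))) (u s))) x := by
    refine (dTM E M).congr h3 (Eventually.of_forall fun s => ?_)
    refine tb_congr rfl ?_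
    rw [Th0_XX]
    rfl
  have h6 := at_nrm' h5 (Th_ne hP h h0)
  have hev : ∀ᶠ s in 𝓝 x, Pm F D X δ ε (u s) (c s) ≠ 0 :=
    h1.self_of_nhds.continuousAt.eventually_ne h0
  refine ⟨?_, ?_⟩
  · refine (dUT E M).congr hu ?_
    filter_upwards [hev] with s hs
    exact (mkp_v hs).symm
  · have h7 : (dTM E M).At (fun s => tb (foot (mkp hP h b₀ (u s) (c s)).w)
        (vec' (mkp hP h b₀ (u s) (c s)).w)) x := by
      refine (dTM E M).congr h6 ?_
      filter_upwards [hev] with s hs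
      refine tb_congr ?_ (mkp_w hs).symm
      rw [(mkp hP h b₀ (u s) (c s)).isL.foot_eq, mkp_v hs]
    exact h7

end Plots

end

end Vale.Agent.P231.S3I
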